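import Mathlib

/-!
Algebra in three-dimensional coordinates used for inscribed ellipsoids.
-/

open Matrix Set

namespace Vale.Agent.P243b

/-- Coordinates in three-space. -/
abbrev V3 := Fin 3 → ℝ

/-- Three by three real matrices. -/
abbrev M3 := Matrix (Fin 3) (Fin 3) ℝ

/-- Squared length. -/
def nsq (x : V3) : ℝ := x ⬝ᵥ x

lemma nsq_nonneg (x : V3) : 0 ≤ nsq x := by
  simp only [nsq, vec3_dotProduct]
  nlinarith [mul_self_nonneg (x 0), mul_self_nonneg (x 1), mul_self_nonneg (x 2)]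

lemma nsq_eq_zero {x : V3} (h : nsq x = 0) : x = 0 := dotProduct_self_eq_zero.1 h

lemma nsq_pos {x : V3} (h : x ≠ 0) : 0 < nsq x :=
  lt_of_le_of_ne (nsq_nonneg x) fun e => h (nsq_eq_zero e.symm)

lemma nsq_smul (c : ℝ) (x : V3) : nsq (c • x) = c ^ 2 * nsq x := by
  simp only [nsq, vec3_dotProduct, Pi.smul_apply, smul_eq_mul]; ring

lemma nsq_add (x y : V3) : nsq (x + y) = nsq x + 2 * (x ⬝ᵥ y) + nsq y := by
  simp only [nsq, vec3_dotProduct, Pi.add_apply]; ring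

lemma dot_sq_le (x y : V3) : (x ⬝ᵥ y) ^ 2 ≤ nsq x * nsq y := by
  have h := nsq_nonneg (x ⨯₃ y)
  rw [nsq, cross_dot_cross, dotProduct_comm y x] at h
  simp only [nsq]; nlinarith

lemma dot_comm_mul (x y : V3) : x ⬝ᵥ y = y ⬝ᵥ x := dotProduct_comm x y

lemma gram_eq (x y : V3) : nsq (x ⨯₃ y) = nsq x * nsq y - (x ⬝ᵥ y) ^ 2 := by
  simp only [nsq, cross_dot_cross, dotProduct_comm y x]; ring

lemma exists_normalize {x : V3} (h : x ≠ 0) :
    ∃ c : ℝ, 0 < c ∧ nsq (c • x) = 1 := by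
  have hp := nsq_pos h
  refine ⟨(Real.sqrt (nsq x))⁻¹, inv_pos.2 (Real.sqrt_pos.2 hp), ?_⟩
  rw [nsq_smul, inv_pow, Real.sq_sqrt hp.le, inv_mul_cancel₀ hp.ne']

/-- A vector orthogonal to a unit vector pair is a multiple of their common normal. -/
lemma cross_of_orth {v x y : V3} (hv : nsq v = 1) (hx : x ⬝ᵥ v = 0) (hy : y ⬝ᵥ v = 0) :
    x ⨯₃ y = ((x ⨯₃ y) ⬝ᵥ v) • v := by
  have h : (x ⨯₃ y) ⨯₃ v = 0 := by
    rw [cross_cross_eq_smul_sub_smul, hx, hy]; simp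
  have h2 := cross_cross_eq_smul_sub_smul' v (x ⨯₃ y) v
  rw [h, map_zero] at h2
  simp only [nsq] at hv
  rw [hv, one_smul] at h2
  exact sub_eq_zero.1 h2.symm

/-- The cross product of two transformed rows. -/
lemma cross_vecMul (x y : V3) (G : M3) :
    (x ᵥ* G) ⨯₃ (y ᵥ* G) = G.adjugate *ᵥ (x ⨯₃ y) := by
  rw [adjugate_fin_three]
  ext i
  fin_cases i <;>
    simp [cross_apply, vecMul, mulVec, dotProduct, Fin.sum_univ_three] <;> ring

/-- An orthonormal frame. -/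
structure Frame (u p q : V3) : Prop where
  uu : u ⬝ᵥ u = 1
  pp : p ⬝ᵥ p = 1
  qq : q ⬝ᵥ q = 1
  up : u ⬝ᵥ p = 0
  uq : u ⬝ᵥ q = 0
  pq : p ⬝ᵥ q = 0

lemma Frame.mul_transpose {u p q : V3} (h : Frame u p q) :
    Matrix.of ![u, p, q] * (Matrix.of ![u, p, q])ᵀ = 1 := by
  have := h.uu; have := h.pp; have := h.qq; have := h.up; have := h.uq; have := h.pq
  simp only [vec3_dotProduct] at *
  ext i j
  fin_cases i <;> fin_cases j <;>
    simp [Matrix.mul_apply, Matrix.transpose_apply, Fin.sum_univ_three] <;> linarith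

lemma Frame.expand {u p q : V3} (h : Frame u p q) (x : V3) :
    x = (x ⬝ᵥ u) • u + (x ⬝ᵥ p) • p + (x ⬝ᵥ q) • q := by
  have h1 := mul_eq_one_comm.1 h.mul_transpose
  have h2 := congrArg (fun N : M3 => N *ᵥ x) h1
  simp only [one_mulVec, ← mulVec_mulVec] at h2
  conv_lhs => rw [← h2]
  ext i
  simp [mulVec, dotProduct, Fin.sum_univ_three, Matrix.transpose_apply]
  ring

lemma Frame.gram {u p q : V3} (h : Frame u p q) {a b : V3} (ha : a ⬝ᵥ u = 0) (hb : b ⬝ᵥ u = 0) :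
    ((a ⬝ᵥ p) * (b ⬝ᵥ q) - (a ⬝ᵥ q) * (b ⬝ᵥ p)) ^ 2 = nsq (a ⨯₃ b) := by
  have e : ∀ x : V3, x ⬝ᵥ u = 0 → ∀ y : V3, x ⬝ᵥ y = (x ⬝ᵥ p) * (p ⬝ᵥ y) + (x ⬝ᵥ q) * (q ⬝ᵥ y) := by
    intro x hx y
    conv_lhs => rw [h.expand x]
    rw [hx]; simp [add_dotProduct, smul_dotProduct]
  rw [gram_eq, nsq, nsq, e a ha a, e b hb b, e a ha b, dotProduct_comm p a, dotProduct_comm q a,
    dotProduct_comm p b, dotProduct_comm q b]
  ring

lemma adjugate_one_add (H : M3) (e : ℝ) (w : V3) :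
    (1 + e • H).adjugate *ᵥ w
      = w + e • (H.trace • w - H *ᵥ w) + e ^ 2 • (H.adjugate *ᵥ w) := by
  rw [adjugate_fin_three, adjugate_fin_three]
  ext i
  fin_cases i <;>
    simp [mulVec, dotProduct, Fin.sum_univ_three, trace, diag, Matrix.one_apply] <;> ring

end Vale.Agent.P243b
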