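import Mathlib
import Vale.Agent.P243b.EllAlg

/-!
Archimedes' density: an ellipsoid cannot be covered by cylinders of small total base area.
-/

open Matrix Set MeasureTheory

namespace Vale.Agent.P243b

/-- Coordinates along an orthonormal frame. -/
noncomputable def frameMap (u p q : V3) (z : ℝ × (ℝ × ℝ)) : V3 :=
  z.1 • u + z.2.1 • p + z.2.2 • q

lemma frameMap_preserving {u p q : V3} (h : Frame u p q) :
    MeasurePreserving (frameMap u p q) volume volume := by
  set R : M3 := Matrix.of ![u, p, q] with hR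
  have hdet : R.det * R.det = 1 := by
    have := congrArg Matrix.det h.mul_transpose
    rwa [det_mul, det_transpose, det_one] at this
  have hne : (Rᵀ).det ≠ 0 := by rw [det_transpose]; intro h0; rw [h0] at hdet; simp at hdet
  have habs : |(Rᵀ).det⁻¹| = 1 := by
    rw [det_transpose, abs_inv]
    rcases mul_self_eq_one_iff.1 hdet with h1 | h1 <;> simp [h1]
  have hlin : MeasurePreserving (toLin' Rᵀ) (volume : Measure V3) volume := by
    refine ⟨(LinearMap.continuous_on_pi _).measurable, ?_⟩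
    rw [Real.map_matrix_volume_pi_eq_smul_volume_pi hne, habs, ENNReal.ofReal_one, one_smul]
  have h1 : MeasurePreserving (MeasurableEquiv.piFinSuccAbove (fun _ : Fin 3 => ℝ) 0).symm
      (volume : Measure (ℝ × (Fin 2 → ℝ))) volume :=
    (volume_preserving_piFinSuccAbove (fun _ : Fin 3 => ℝ) 0).symm _
  have h2 : MeasurePreserving
      (Prod.map (id : ℝ → ℝ) (MeasurableEquiv.finTwoArrow (α := ℝ)).symm)
      (volume : Measure (ℝ × (ℝ × ℝ))) volume :=
    (MeasurePreserving.id (volume : Measure ℝ)).prod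
      ((volume_preserving_finTwoArrow ℝ).symm _)
  suffices e : frameMap u p q = toLin' Rᵀ ∘ (MeasurableEquiv.piFinSuccAbove (fun _ : Fin 3 => ℝ) 0).symm ∘
      Prod.map id (MeasurableEquiv.finTwoArrow (α := ℝ)).symm by
    rw [e]; exact hlin.comp (h1.comp h2)
  funext z
  have e : (MeasurableEquiv.piFinSuccAbove (fun _ : Fin 3 => ℝ) 0).symm
      (z.1, (MeasurableEquiv.finTwoArrow (α := ℝ)).symm z.2) = ![z.1, z.2.1, z.2.2] := by
    ext i; fin_cases i <;> rfl
  simp only [Function.comp_apply, Prod.map_apply, id, e, toLin'_apply]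
  ext i
  simp [frameMap, R, mulVec, dotProduct, Fin.sum_univ_three]
  ring

/-- The singular weight. -/
noncomputable def wt (D : ℝ) (y : V3) : ENNReal :=
  ENNReal.ofReal (Real.sqrt (D ^ 2 - nsq y))⁻¹

lemma measurable_wt (D : ℝ) : Measurable (wt D) := by unfold wt nsq; fun_prop

lemma lintegral_inv_sqrt (c : ℝ) :
    ∫⁻ t : ℝ, ENNReal.ofReal (Real.sqrt (c - t ^ 2))⁻¹
      = if 0 < c then ENNReal.ofReal Real.pi else 0 := by
  split_ifs with hc
  swap
  · have : ∀ t : ℝ, Real.sqrt (c - t ^ 2) = 0 := fun t =>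
      Real.sqrt_eq_zero_of_nonpos (by nlinarith [sq_nonneg t])
    simp [this]
  set r := Real.sqrt c with hr
  have hr0 : 0 < r := Real.sqrt_pos.2 hc
  have hr2 : r ^ 2 = c := Real.sq_sqrt hc.le
  have e : (fun t : ℝ => ENNReal.ofReal (Real.sqrt (c - t ^ 2))⁻¹)
      = (Ioc (-r) r).indicator fun t => ENNReal.ofReal (Real.sqrt (c - t ^ 2))⁻¹ := by
    funext t
    by_cases ht : t ∈ Ioc (-r) r
    · rw [indicator_of_mem ht]
    · rw [indicator_of_notMem ht]
      have : c ≤ t ^ 2 := by
        simp only [mem_Ioc, not_and_or, not_lt, not_le] at ht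
        rcases ht with h | h <;> nlinarith
      simp [Real.sqrt_eq_zero_of_nonpos (by linarith : c - t ^ 2 ≤ 0)]
  rw [e, lintegral_indicator measurableSet_Ioc]
  have hder : ∀ t ∈ Ioo (-r) r,
      HasDerivAt (fun t => Real.arcsin (t / r)) (Real.sqrt (c - t ^ 2))⁻¹ t := by
    intro t ht
    have h1 : t / r ≠ -1 := by
      intro h; rw [div_eq_iff hr0.ne'] at h; linarith [ht.1]
    have h2 : t / r ≠ 1 := by
      intro h; rw [div_eq_iff hr0.ne'] at h; linarith [ht.2]
    have := (Real.hasDerivAt_arcsin h1 h2).comp t ((hasDerivAt_id t).div_const r)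
    refine this.congr_deriv ?_
    have e1 : 1 - (t / r) ^ 2 = (c - t ^ 2) / r ^ 2 := by rw [← hr2]; field_simp
    rw [e1, Real.sqrt_div' _ (sq_nonneg r), Real.sqrt_sq hr0.le]
    field_simp
  have hcont : ContinuousOn (fun t => Real.arcsin (t / r)) (Icc (-r) r) := by fun_prop
  have hpos : ∀ t ∈ Ioo (-r) r, 0 ≤ (Real.sqrt (c - t ^ 2))⁻¹ := fun t _ => by positivity
  have hint := intervalIntegral.integrableOn_deriv_of_nonneg hcont hder hpos
  rw [← ofReal_integral_eq_lintegral_ofReal hint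
    (Filter.Eventually.of_forall fun t => by positivity),
    ← intervalIntegral.integral_of_le (by linarith : -r ≤ r),
    intervalIntegral.integral_eq_sub_of_hasDerivAt_of_le (by linarith) hcont hder
      ((intervalIntegrable_iff_integrableOn_Ioc_of_le (by linarith)).2 hint)]
  congr 1
  rw [div_self hr0.ne', neg_div, div_self hr0.ne', Real.arcsin_neg, Real.arcsin_one]
  ring

lemma lintegral_inv_sqrt_affine (c m : ℝ) {k : ℝ} (hk : 0 < k) :
    ∫⁻ t : ℝ, ENNReal.ofReal (Real.sqrt (c - (k * t + m) ^ 2))⁻¹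
      = ENNReal.ofReal k⁻¹ * if 0 < c then ENNReal.ofReal Real.pi else 0 := by
  rw [← lintegral_inv_sqrt c,
    ← lintegral_add_right_eq_self (fun t : ℝ => ENNReal.ofReal (Real.sqrt (c - t ^ 2))⁻¹) m]
  set f : ℝ → ENNReal := fun t => ENNReal.ofReal (Real.sqrt (c - (t + m) ^ 2))⁻¹ with hf
  have h := lintegral_map (μ := (volume : Measure ℝ)) (f := f) (g := fun t => k * t)
    (by rw [hf]; fun_prop) (by fun_prop)
  rw [Real.map_volume_mul_left hk.ne', lintegral_smul_measure, abs_of_pos (inv_pos.2 hk)] at h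
  exact h.symm

/-- The weight along a line. -/
lemma lintegral_wt_line (D : ℝ) (a : V3) {b : V3} (hb : b ≠ 0) :
    ∫⁻ t : ℝ, wt D (a + t • b) = ENNReal.ofReal (Real.sqrt (nsq b))⁻¹ *
      if 0 < D ^ 2 - nsq a + (a ⬝ᵥ b) ^ 2 / nsq b then ENNReal.ofReal Real.pi else 0 := by
  have hk := Real.sqrt_pos.2 (nsq_pos hb)
  rw [← lintegral_inv_sqrt_affine _ ((a ⬝ᵥ b) / Real.sqrt (nsq b)) hk]
  refine lintegral_congr fun t => ?_
  rw [wt, nsq_add, nsq_smul, dotProduct_smul, smul_eq_mul]
  congr 3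
  have h2 : Real.sqrt (nsq b) ^ 2 = nsq b := Real.sq_sqrt (nsq_nonneg b)
  rw [add_sq, div_pow, mul_pow, h2]
  field_simp
  ring

lemma volume_disk {D : ℝ} :
    volume {z : ℝ × ℝ | z.1 ^ 2 + z.2 ^ 2 < D ^ 2} = ENNReal.ofReal (D ^ 2 * Real.pi) := by
  rw [← Complex.volume_preserving_equiv_real_prod.measure_preimage_equiv]
  have e : Complex.measurableEquivRealProd ⁻¹' {z : ℝ × ℝ | z.1 ^ 2 + z.2 ^ 2 < D ^ 2}
      = Metric.ball (0 : ℂ) |D| := by
    ext z
    simp only [mem_preimage, mem_ofPred_eq, Complex.measurableEquivRealProd_apply,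
      mem_ball_zero_iff]
    rw [← sq_lt_sq₀ (norm_nonneg z) (abs_nonneg D), sq_abs, Complex.sq_norm, Complex.normSq_apply]
    simp [sq]
  rw [e, Complex.volume_ball, ← ENNReal.ofReal_pow (abs_nonneg D), sq_abs,
    ENNReal.ofReal_mul (sq_nonneg D)]
  congr 1
  simp [← NNReal.coe_real_pi, ENNReal.ofReal_coe_nnreal]

/-- The total weight. -/
lemma lintegral_wt (D : ℝ) : ∫⁻ y : V3, wt D y = ENNReal.ofReal (Real.pi ^ 2 * D ^ 2) := by
  have hfr : Frame (![1, 0, 0] : V3) ![0, 1, 0] ![0, 0, 1] := by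
    constructor <;> simp [vec3_dotProduct]
  rw [← (frameMap_preserving hfr).lintegral_comp (measurable_wt D), Measure.volume_eq_prod,
    lintegral_prod_symm (fun z => wt D (frameMap ![1, 0, 0] ![0, 1, 0] ![0, 0, 1] z))
      ((measurable_wt D).comp (frameMap_preserving hfr).measurable).aemeasurable]
  have hb : (![1, 0, 0] : V3) ≠ 0 := fun h => by simpa using congrFun h 0
  have hline : ∀ z : ℝ × ℝ, ∫⁻ t : ℝ, wt D (frameMap ![1, 0, 0] ![0, 1, 0] ![0, 0, 1] (t, z))
      = {z : ℝ × ℝ | z.1 ^ 2 + z.2 ^ 2 < D ^ 2}.indicator (fun _ => ENNReal.ofReal Real.pi) z := by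
    intro z
    have e : ∀ t : ℝ, frameMap ![1, 0, 0] ![0, 1, 0] ![0, 0, 1] (t, z)
        = (z.1 • (![0, 1, 0] : V3) + z.2 • ![0, 0, 1]) + t • ![1, 0, 0] := fun t => by
      simp only [frameMap]; abel
    simp only [e]
    rw [lintegral_wt_line D _ hb, indicator_apply]
    simp [nsq, sq, sub_add_eq_sub_sub]
    exact if_congr ⟨fun h => by linarith, fun h => by linarith⟩ rfl rfl
  simp only [hline]
  rw [lintegral_indicator (measurableSet_lt (by fun_prop) (by fun_prop)), setLIntegral_const,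
    volume_disk, ← ENNReal.ofReal_mul Real.pi_pos.le]
  congr 1; ring

/-- Cylinders covering an ellipsoid have total base area at least that of its least shadow. -/
theorem ellipsoid_cover {M : M3} {F : ℝ} (hF : 0 < F) (hdet : M.det ≠ 0)
    (least : ∀ u : V3, nsq u = 1 → F ^ 2 ≤ nsq (M.adjugate *ᵥ u))
    {ι : Type*} [Fintype ι] (u p q : ι → V3) (hfr : ∀ i, Frame (u i) (p i) (q i))
    (B : ι → Set (ℝ × ℝ)) (hB : ∀ i, MeasurableSet (B i)) (hBf : ∀ i, volume (B i) ≠ ⊤)
    (hcov : ∀ y : V3, nsq y ≤ 1 → ∃ i, (M *ᵥ y ⬝ᵥ p i, M *ᵥ y ⬝ᵥ q i) ∈ B i) :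
    Real.pi * F ≤ ∑ i, volume.real (B i) := by
  set G := M.adjugate with hG
  set D := M.det with hD
  have hGd : G.det = D ^ 2 := by rw [hG, det_adjugate]; simp [hD]
  have hmeasG : Measurable fun x : V3 => G *ᵥ x := by fun_prop
  -- total mass
  have htot : ∫⁻ x : V3, wt D (G *ᵥ x) = ENNReal.ofReal (Real.pi ^ 2) := by
    have hne : G.det ≠ 0 := by rw [hGd]; positivity
    have h := lintegral_map (μ := (volume : Measure V3)) (measurable_wt D)
      (LinearMap.continuous_on_pi (toLin' G)).measurable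
    rw [Real.map_matrix_volume_pi_eq_smul_volume_pi hne, lintegral_smul_measure, lintegral_wt] at h
    simp only [toLin'_apply] at h
    rw [← h, smul_eq_mul, ← ENNReal.ofReal_mul (abs_nonneg _), hGd,
      abs_of_nonneg (inv_nonneg.2 (sq_nonneg D))]
    congr 1
    field_simp
  let cyl : ι → Set V3 := fun i => {x | (x ⬝ᵥ p i, x ⬝ᵥ q i) ∈ B i}
  have hcyl : ∀ i, MeasurableSet (cyl i) := fun i => (hB i).preimage (by fun_prop)
  have hle : ∀ x : V3, wt D (G *ᵥ x) ≤ ∑ i, (cyl i).indicator (fun x => wt D (G *ᵥ x)) x := by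
    intro x
    by_cases h0 : nsq (G *ᵥ x) < D ^ 2
    · have hy : nsq (D⁻¹ • (G *ᵥ x)) ≤ 1 := by
        rw [nsq_smul, inv_pow, inv_mul_le_iff₀ (by positivity), mul_one]; exact h0.le
      obtain ⟨i, hi⟩ := hcov _ hy
      have hx : M *ᵥ (D⁻¹ • (G *ᵥ x)) = x := by
        rw [mulVec_smul, mulVec_mulVec, hG, mul_adjugate, smul_mulVec, one_mulVec, smul_smul,
          inv_mul_cancel₀ hdet, one_smul]
      rw [hx] at hi
      refine le_trans ?_ (Finset.single_le_sum (f := fun i => (cyl i).indicator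
        (fun x => wt D (G *ᵥ x)) x) (fun _ _ => zero_le) (Finset.mem_univ i))
      rw [indicator_of_mem (show x ∈ cyl i from hi)]
    · have : wt D (G *ᵥ x) = 0 := by
        simp [wt, Real.sqrt_eq_zero_of_nonpos (by linarith : D ^ 2 - nsq (G *ᵥ x) ≤ 0)]
      rw [this]; exact zero_le
  have hone : ∀ i, ∫⁻ x, (cyl i).indicator (fun x => wt D (G *ᵥ x)) x
      ≤ ENNReal.ofReal (Real.pi / F) * volume (B i) := by
    intro i
    have hpres := frameMap_preserving (hfr i)
    have hfm : Measurable ((cyl i).indicator fun x => wt D (G *ᵥ x)) :=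
      ((measurable_wt D).comp hmeasG).indicator (hcyl i)
    rw [← hpres.lintegral_comp hfm, Measure.volume_eq_prod,
      lintegral_prod_symm (fun z => (cyl i).indicator (fun x => wt D (G *ᵥ x))
        (frameMap (u i) (p i) (q i) z)) (hfm.comp hpres.measurable).aemeasurable]
    have hGu : F ≤ Real.sqrt (nsq (G *ᵥ u i)) :=
      Real.le_sqrt_of_sq_le (least _ (hfr i).uu)
    have hGu0 : G *ᵥ u i ≠ 0 := by
      intro h; rw [h] at hGu; simp [nsq] at hGu; linarith
    calc ∫⁻ z : ℝ × ℝ, ∫⁻ t : ℝ,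
          (cyl i).indicator (fun x => wt D (G *ᵥ x)) (frameMap (u i) (p i) (q i) (t, z))
        ≤ ∫⁻ z : ℝ × ℝ, (B i).indicator (fun _ => ENNReal.ofReal (Real.pi / F)) z := by
          refine lintegral_mono fun z => ?_
          have hc : ∀ t : ℝ, (frameMap (u i) (p i) (q i) (t, z) ⬝ᵥ p i,
              frameMap (u i) (p i) (q i) (t, z) ⬝ᵥ q i) = z := by
            intro t
            have := hfr i
            simp [frameMap, add_dotProduct, smul_dotProduct, this.up, this.uq, this.pp, this.qq,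
              this.pq, dotProduct_comm (q i) (p i)]
          by_cases hz : z ∈ B i
          · rw [indicator_of_mem hz]
            have e : ∀ t : ℝ, (cyl i).indicator (fun x => wt D (G *ᵥ x))
                (frameMap (u i) (p i) (q i) (t, z))
                = wt D ((z.1 • (G *ᵥ p i) + z.2 • (G *ᵥ q i)) + t • (G *ᵥ u i)) := by
              intro t
              rw [indicator_of_mem (show _ ∈ cyl i by simpa only [cyl, mem_ofPred_eq, hc t] using hz)]
              congr 1
              simp only [frameMap, mulVec_add, mulVec_smul]; abel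
            simp only [e]
            rw [lintegral_wt_line D _ hGu0, show Real.pi / F = F⁻¹ * Real.pi by ring,
              ENNReal.ofReal_mul (inv_nonneg.2 hF.le)]
            refine mul_le_mul' (ENNReal.ofReal_le_ofReal (inv_anti₀ hF hGu)) ?_
            split_ifs <;> simp
          · have e : ∀ t : ℝ, (cyl i).indicator (fun x => wt D (G *ᵥ x))
                (frameMap (u i) (p i) (q i) (t, z)) = 0 := fun t =>
              indicator_of_notMem (by simpa only [cyl, mem_ofPred_eq, hc t] using hz) _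
            simp [e]
      _ = _ := by rw [lintegral_indicator (hB i), setLIntegral_const]
  have h1 : ENNReal.ofReal (Real.pi ^ 2) ≤ ∑ i, ENNReal.ofReal (Real.pi / F) * volume (B i) := by
    rw [← htot]
    refine (lintegral_mono hle).trans ?_
    rw [lintegral_finset_sum (f := fun i x => (cyl i).indicator (fun x => wt D (G *ᵥ x)) x)
      _ fun i _ => ((measurable_wt D).comp hmeasG).indicator (hcyl i)]
    exact Finset.sum_le_sum fun i _ => hone i
  have h2 := ENNReal.toReal_mono
    (ENNReal.sum_ne_top.2 fun i _ => ENNReal.mul_ne_top ENNReal.ofReal_ne_top (hBf i)) h1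
  rw [ENNReal.toReal_sum fun i _ => ENNReal.mul_ne_top ENNReal.ofReal_ne_top (hBf i),
    ENNReal.toReal_ofReal (sq_nonneg _)] at h2
  simp only [ENNReal.toReal_mul, ENNReal.toReal_ofReal (div_nonneg Real.pi_pos.le hF.le),
    ← Finset.mul_sum, ← measureReal_def] at h2
  rw [div_mul_eq_mul_div, le_div_iff₀ hF] at h2
  nlinarith [Real.pi_pos]

end Vale.Agent.P243b
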