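import Mathlib

/-!
The plank theorem of Bang in a finite-dimensional inner product space, and its form for planks
with arbitrary (outer measure) bases.
-/

open MeasureTheory Set Pointwise

namespace Vale.Agent.P243b

variable {F : Type*} [NormedAddCommGroup F] [InnerProductSpace ℝ F] [FiniteDimensional ℝ F]

/-- Every direction has width at least `W`. -/
def WidthGE (K : Set F) (W : ℝ) : Prop :=
  ∀ e : F, ‖e‖ = 1 → ∃ x ∈ K, ∃ y ∈ K, W ≤ inner ℝ e (x - y)

lemma exists_chord {K : Set F} (hK : IsCompact K) (hKv : Convex ℝ K) (hKne : K.Nonempty)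
    {W : ℝ} (hW : WidthGE K W) {a : F} (ha : ‖a‖ ≤ W) : ∃ p ∈ K, ∃ q ∈ K, p - q = a := by
  suffices h : a ∈ K - K by
    obtain ⟨p, hp, q, hq, rfl⟩ := mem_sub.1 h
    exact ⟨p, hp, q, hq, rfl⟩
  by_contra h
  have hc : IsClosed (K - K) := by
    have : K - K = (fun x : F × F => x.1 - x.2) '' (K ×ˢ K) := by
      rw [Set.image_prod]; rfl
    rw [this]
    exact ((hK.prod hK).image (by fun_prop)).isClosed
  obtain ⟨f, s, hs, hsa⟩ := geometric_hahn_banach_closed_point (hKv.sub hKv) hc h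
  set g := (InnerProductSpace.toDual ℝ F).symm f with hg
  have hf : ∀ x, f x = inner ℝ g x := fun x => (InnerProductSpace.toDual_symm_apply).symm
  obtain ⟨x0, hx0⟩ := hKne
  have s0 : 0 < s := by
    have := hs 0 ⟨x0, hx0, x0, hx0, sub_self x0⟩
    simpa using this
  have g0 : g ≠ 0 := by
    intro h0; rw [hf, h0, inner_zero_left] at hsa; linarith
  have gn : 0 < ‖g‖ := norm_pos_iff.2 g0
  obtain ⟨x, hx, y, hy, hxy⟩ := hW (‖g‖⁻¹ • g) (norm_smul_inv_norm g0)
  rw [real_inner_smul_left, inv_mul_eq_div, le_div_iff₀ gn] at hxy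
  have h1 := hs (x - y) (sub_mem_sub hx hy)
  rw [hf] at h1 hsa
  have h2 : inner ℝ g a ≤ ‖g‖ * ‖a‖ := real_inner_le_norm g a
  nlinarith

lemma shrink_step {K : Set F} (hK : IsCompact K) (hKv : Convex ℝ K) (hKne : K.Nonempty)
    {W : ℝ} (hW : WidthGE K W) {v : F} (hv : ‖v‖ = 1) {w : ℝ} (hw0 : 0 ≤ w) (hw : 2 * w < W) :
    IsCompact {x | x + w • v ∈ K ∧ x - w • v ∈ K} ∧
      Convex ℝ {x | x + w • v ∈ K ∧ x - w • v ∈ K} ∧
      {x | x + w • v ∈ K ∧ x - w • v ∈ K}.Nonempty ∧
      WidthGE {x | x + w • v ∈ K ∧ x - w • v ∈ K} (W - 2 * w) := by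
  have W0 : 0 < W := by linarith
  obtain ⟨p, hp, q, hq, hpq⟩ := exists_chord hK hKv hKne hW (a := W • v)
    (by rw [norm_smul, hv, Real.norm_of_nonneg W0.le]; linarith)
  set t := 2 * w / W with ht
  have t0 : 0 ≤ t := div_nonneg (by linarith) W0.le
  have t1 : 0 ≤ 1 - t := by rw [sub_nonneg, ht, div_le_one W0]; linarith
  set φ := fun x : F => (1 - t) • x + (t / 2) • (p + q) with hφ
  have mem : ∀ x ∈ K, φ x ∈ {x | x + w • v ∈ K ∧ x - w • v ∈ K} := by
    intro x hx
    have e : w • v = (t / 2) • (p - q) := by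
      rw [hpq, smul_smul, ht]; congr 1; field_simp
    refine ⟨?_, ?_⟩
    · have := hKv hx hp t1 t0 (by ring)
      convert this using 1
      rw [e, hφ]; module
    · have := hKv hx hq t1 t0 (by ring)
      convert this using 1
      rw [e, hφ]; module
  refine ⟨?_, ?_, ⟨φ _, mem _ hKne.choose_spec⟩, ?_⟩
  · have h1 : IsCompact ((fun x => x + w • v) ⁻¹' K) :=
      (Homeomorph.addRight (w • v)).isCompact_preimage.2 hK
    exact h1.inter_right (hK.isClosed.preimage (by fun_prop))
  · have h1 : Convex ℝ ((fun x => x + w • v) ⁻¹' K) := hKv.translate_preimage_left (w • v)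
    have h2 : Convex ℝ ((fun x => x + -(w • v)) ⁻¹' K) := hKv.translate_preimage_left (-(w • v))
    convert h1.inter h2 using 1
    ext x; simp [sub_eq_add_neg]
  · intro e he
    obtain ⟨x, hx, y, hy, hxy⟩ := hW e he
    refine ⟨φ x, mem x hx, φ y, mem y hy, ?_⟩
    have e2 : φ x - φ y = (1 - t) • (x - y) := by simp only [hφ]; module
    rw [e2, real_inner_smul_right]
    calc W - 2 * w = (1 - t) * W := by rw [ht]; field_simp
      _ ≤ _ := mul_le_mul_of_nonneg_left hxy t1

lemma exists_centre {ι : Type*} [DecidableEq ι] (s : Finset ι) (v : ι → F) (w : ι → ℝ)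
    (hv : ∀ i ∈ s, ‖v i‖ = 1) (hw : ∀ i ∈ s, 0 ≤ w i) :
    ∀ (K : Set F) (W : ℝ), IsCompact K → Convex ℝ K → K.Nonempty → WidthGE K W →
      2 * ∑ i ∈ s, w i < W →
      ∃ x, ∀ σ : ι → ℝ, (∀ i, σ i = 1 ∨ σ i = -1) → x + ∑ i ∈ s, (σ i * w i) • v i ∈ K := by
  induction s using Finset.induction with
  | empty => intro K W _ _ hne _ _; exact ⟨hne.choose, fun σ _ => by simpa using hne.choose_spec⟩
  | @insert a s ha ih =>
    intro K W hK hKv hne hW hlt
    rw [Finset.sum_insert ha] at hlt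
    have hwa := hw a (Finset.mem_insert_self a s)
    have hs : 0 ≤ ∑ i ∈ s, w i :=
      Finset.sum_nonneg fun i hi => hw i (Finset.mem_insert_of_mem hi)
    obtain ⟨h1, h2, h3, h4⟩ := shrink_step hK hKv hne hW (hv a (Finset.mem_insert_self a s)) hwa
      (by linarith)
    obtain ⟨x, hx⟩ := ih (fun i hi => hv i (Finset.mem_insert_of_mem hi))
      (fun i hi => hw i (Finset.mem_insert_of_mem hi)) _ _ h1 h2 h3 h4 (by linarith)
    refine ⟨x, fun σ hσ => ?_⟩
    obtain ⟨p1, p2⟩ := hx σ hσ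
    rw [Finset.sum_insert ha]
    rcases hσ a with h | h
    · rw [h, one_mul]; convert p1 using 1; abel
    · rw [h, neg_one_mul, neg_smul]; convert p2 using 1; abel

/-- Bang's plank theorem. -/
theorem bang {ι : Type*} [Fintype ι] {K : Set F} (hK : IsCompact K) (hKv : Convex ℝ K)
    (hne : K.Nonempty) {W : ℝ} (hW : WidthGE K W) (v : ι → F) (c w : ι → ℝ)
    (hv : ∀ i, ‖v i‖ = 1) (hw : ∀ i, 0 ≤ w i)
    (hcov : K ⊆ ⋃ i, {x | |inner ℝ (v i) x - c i| ≤ w i}) : W ≤ 2 * ∑ i, w i := by
  classical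
  by_contra h
  push_neg at h
  obtain ⟨δ, δ0, hδ⟩ : ∃ δ : ℝ, 0 < δ ∧ 2 * ∑ i, (w i + δ) < W := by
    refine ⟨(W - 2 * ∑ i, w i) / (2 * (Fintype.card ι + 1)), div_pos (by linarith) (by positivity), ?_⟩
    rw [Finset.sum_add_distrib, Finset.sum_const, Finset.card_univ, nsmul_eq_mul]
    set N : ℝ := (Fintype.card ι : ℝ)
    have : 0 ≤ N := Nat.cast_nonneg _
    have h3 : N * ((W - 2 * ∑ i, w i) / (2 * (N + 1))) < (W - 2 * ∑ i, w i) / 2 := by
      rw [← mul_div_assoc, div_lt_div_iff₀ (by positivity) (by norm_num)]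
      nlinarith
    linarith
  obtain ⟨x0, hx0⟩ := exists_centre Finset.univ v (fun i => w i + δ) (fun i _ => hv i)
    (fun i _ => add_nonneg (hw i) δ0.le) K W hK hKv hne hW hδ
  let σ : (ι → Bool) → ι → ℝ := fun b i => if b i then 1 else -1
  let S : (ι → Bool) → F := fun b => ∑ i, (σ b i * (w i + δ)) • v i
  let Φ : (ι → Bool) → ℝ := fun b =>
    ‖S b‖ ^ 2 - 2 * ∑ i, σ b i * (w i + δ) * (c i - inner ℝ (v i) x0)
  obtain ⟨b, hb⟩ := Finite.exists_max Φ
  have hmem : x0 + S b ∈ K := hx0 (σ b) fun i => by by_cases h : b i <;> simp [σ, h]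
  obtain ⟨j, hj⟩ := mem_iUnion.1 (hcov hmem)
  set b' := Function.update b j (!b j) with hb'
  have hσ : ∀ i, σ b' i = σ b i - (if i = j then 2 * σ b j else 0) := by
    intro i
    by_cases h : i = j
    · subst h; cases hbi : b i <;> simp [σ, hb', hbi] <;> norm_num
    · simp [σ, hb', h]
  have hS : S b' = S b - (2 * σ b j * (w j + δ)) • v j := by
    simp only [S, hσ, sub_mul, sub_smul, Finset.sum_sub_distrib, ite_mul, zero_mul, ite_smul,
      zero_smul, Finset.sum_ite_eq', Finset.mem_univ, if_true]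
  have hΦ : Φ b' = ‖S b'‖ ^ 2 - 2 * ((∑ i, σ b i * (w i + δ) * (c i - inner ℝ (v i) x0))
      - 2 * σ b j * (w j + δ) * (c j - inner ℝ (v j) x0)) := by
    simp only [Φ, hσ, sub_mul, Finset.sum_sub_distrib, ite_mul, zero_mul, Finset.sum_ite_eq',
      Finset.mem_univ, if_true]
  have hle := hb b'
  rw [hΦ, hS] at hle
  simp only [Φ] at hle
  rw [norm_sub_sq_real, real_inner_smul_right, norm_smul, hv j, mul_one, Real.norm_eq_abs, sq_abs,
    real_inner_comm] at hle
  have habs : |inner ℝ (v j) (x0 + S b) - c j| ≤ w j := hj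
  rw [inner_add_right, abs_le] at habs
  have hwp : 0 < w j + δ := add_pos_of_nonneg_of_pos (hw j) δ0
  cases hbj : b j <;> simp only [σ, hbj] at hle <;> norm_num at hle <;> nlinarith

/-- A connected subset of the line of finite measure lies in an interval of the same length. -/
lemma preconnected_hull {C : Set ℝ} (hC : IsPreconnected C) (hne : C.Nonempty)
    (hfin : volume C ≠ ⊤) :
    ∃ a b, a ≤ b ∧ C ⊆ Icc a b ∧ ENNReal.ofReal (b - a) ≤ volume C := by
  obtain ⟨x, hx⟩ := hne
  have habove : BddAbove C := by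
    refine ⟨x + (volume C).toReal, fun y hy => ?_⟩
    rcases le_total y x with h | h
    · linarith [ENNReal.toReal_nonneg (a := volume C)]
    · have := measure_mono (μ := volume) (hC.Icc_subset hx hy)
      rw [Real.volume_Icc] at this
      have := ENNReal.toReal_mono hfin this
      rw [ENNReal.toReal_ofReal (by linarith)] at this
      linarith
  have hbelow : BddBelow C := by
    refine ⟨x - (volume C).toReal, fun y hy => ?_⟩
    rcases le_total x y with h | h
    · linarith [ENNReal.toReal_nonneg (a := volume C)]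
    · have := measure_mono (μ := volume) (hC.Icc_subset hy hx)
      rw [Real.volume_Icc] at this
      have := ENNReal.toReal_mono hfin this
      rw [ENNReal.toReal_ofReal (by linarith)] at this
      linarith
  refine ⟨sInf C, sSup C, csInf_le_csSup ⟨x, hx⟩ hbelow habove,
    fun y hy => ⟨csInf_le hbelow hy, le_csSup habove hy⟩, ?_⟩
  rw [← Real.volume_Ioo]
  exact measure_mono (IsConnected.Ioo_csInf_csSup_subset ⟨⟨x, hx⟩, hC⟩ hbelow habove)

/-- Bang's theorem for planks whose bases are arbitrary subsets of the line. -/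
theorem bang_outer {ι : Type*} [Fintype ι] {K : Set F} (hK : IsCompact K) (hKv : Convex ℝ K)
    (hne : K.Nonempty) {W : ℝ} (hW : WidthGE K W) (v : ι → F) (A : ι → Set ℝ)
    (hv : ∀ i, ‖v i‖ = 1) (hcov : K ⊆ ⋃ i, {x | inner ℝ (v i) x ∈ A i}) :
    ENNReal.ofReal W ≤ ∑ i, volume (A i) := by
  classical
  by_cases htop : ∑ i, volume (A i) = ⊤
  · simp [htop]
  refine ENNReal.le_of_forall_pos_le_add fun ε ε0 _ => ?_
  have hne' : ((ε : ENNReal) / (Fintype.card ι + 1)) ≠ 0 :=
    ENNReal.div_ne_zero.2 ⟨by simpa using ε0.ne', by simp⟩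
  have hAfin : ∀ i, volume (A i) ≠ ⊤ := fun i =>
    ENNReal.sum_ne_top.1 htop i (Finset.mem_univ i)
  choose U hAU hUo hU using fun i => (A i).exists_isOpen_lt_add (μ := volume) (hAfin i) hne'
  let O : (ι × ℝ) → Set F := fun p => {x | inner ℝ (v p.1) x ∈ connectedComponentIn (U p.1) p.2}
  have hO : ∀ p, IsOpen (O p) := fun p => ((hUo p.1).connectedComponentIn).preimage (by fun_prop)
  obtain ⟨T, hT⟩ := hK.elim_finite_subcover O hO fun x hx => by
    obtain ⟨i, hi⟩ := mem_iUnion.1 (hcov hx)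
    exact mem_iUnion.2 ⟨(i, inner ℝ (v i) x), mem_connectedComponentIn (hAU i hi)⟩
  let P : Finset (ι × Set ℝ) :=
    (T.filter fun p => p.2 ∈ U p.1).image fun p => (p.1, connectedComponentIn (U p.1) p.2)
  have hP : ∀ q : P, IsPreconnected q.1.2 ∧ q.1.2.Nonempty ∧ q.1.2 ⊆ U q.1.1 ∧
      volume q.1.2 ≠ ⊤ := by
    rintro ⟨q, hq⟩
    obtain ⟨p, hp, rfl⟩ := Finset.mem_image.1 hq
    refine ⟨isPreconnected_connectedComponentIn,
      ⟨p.2, mem_connectedComponentIn (Finset.mem_filter.1 hp).2⟩, connectedComponentIn_subset _ _, ?_⟩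
    refine ne_top_of_le_ne_top ?_ (measure_mono (connectedComponentIn_subset _ _))
    exact ((hU p.1).trans_le le_top).ne
  choose a b hab hsub hlen using fun q : P => preconnected_hull (hP q).1 (hP q).2.1 (hP q).2.2.2
  have hbang := bang hK hKv hne hW (fun q : P => v q.1.1) (fun q => (a q + b q) / 2)
    (fun q => (b q - a q) / 2) (fun q => hv _) (fun q => by linarith [hab q]) fun x hx => by
      obtain ⟨p, hpT, hp⟩ := mem_iUnion₂.1 (hT hx)
      have hpU : p.2 ∈ U p.1 := connectedComponentIn_nonempty_iff.1 ⟨_, hp⟩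
      let q : P := ⟨(p.1, connectedComponentIn (U p.1) p.2),
        Finset.mem_image.2 ⟨p, Finset.mem_filter.2 ⟨hpT, hpU⟩, rfl⟩⟩
      refine mem_iUnion.2 ⟨q, ?_⟩
      have h2 := hsub q hp
      change |inner ℝ (v p.1) x - (a q + b q) / 2| ≤ (b q - a q) / 2
      rw [abs_le]; constructor <;> linarith [h2.1, h2.2]
  calc ENNReal.ofReal W ≤ ENNReal.ofReal (∑ q : P, (b q - a q)) := by
        apply ENNReal.ofReal_le_ofReal
        refine hbang.trans_eq ?_
        rw [Finset.mul_sum]; exact Finset.sum_congr rfl fun q _ => by ring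
    _ = ∑ q : P, ENNReal.ofReal (b q - a q) :=
        ENNReal.ofReal_sum_of_nonneg fun q _ => by linarith [hab q]
    _ ≤ ∑ q : P, volume q.1.2 := Finset.sum_le_sum fun q _ => hlen q
    _ = ∑ i, ∑ q ∈ P.filter (fun q => q.1 = i), volume q.2 := by
        rw [Finset.sum_coe_sort P (fun q => volume q.2)]
        exact (Finset.sum_fiberwise P (fun q => q.1) (fun q => volume q.2)).symm
    _ ≤ ∑ i, volume (U i) := by
        refine Finset.sum_le_sum fun i _ => ?_
        rw [← measure_biUnion_finset]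
        · refine measure_mono (iUnion₂_subset fun q hq => ?_)
          obtain ⟨hq1, hq2⟩ := Finset.mem_filter.1 hq
          exact hq2 ▸ (hP ⟨q, hq1⟩).2.2.1
        · intro q hq q' hq' hne2
          obtain ⟨hq1, rfl⟩ := Finset.mem_filter.1 (Finset.mem_coe.1 hq)
          obtain ⟨hq1', hqi⟩ := Finset.mem_filter.1 (Finset.mem_coe.1 hq')
          obtain ⟨p, -, rfl⟩ := Finset.mem_image.1 hq1
          obtain ⟨p', -, rfl⟩ := Finset.mem_image.1 hq1'
          simp only at hqi
          refine Set.disjoint_left.2 fun y hy hy' => hne2 ?_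
          simp only [hqi] at hy' ⊢
          rw [connectedComponentIn_eq hy, connectedComponentIn_eq hy']
        · intro q hq
          obtain ⟨hq1, -⟩ := Finset.mem_filter.1 hq
          obtain ⟨p, -, rfl⟩ := Finset.mem_image.1 hq1
          exact (hUo p.1).connectedComponentIn.measurableSet
    _ ≤ ∑ i, (volume (A i) + (ε : ENNReal) / (Fintype.card ι + 1)) :=
        Finset.sum_le_sum fun i _ => (hU i).le
    _ ≤ ∑ i, volume (A i) + ε := by
        rw [Finset.sum_add_distrib, Finset.sum_const, Finset.card_univ, nsmul_eq_mul]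
        gcongr
        calc (Fintype.card ι : ENNReal) * ((ε : ENNReal) / (Fintype.card ι + 1))
            ≤ ((Fintype.card ι : ENNReal) + 1) * ((ε : ENNReal) / (Fintype.card ι + 1)) := by
              gcongr; exact le_self_add
          _ ≤ _ := ENNReal.mul_div_le

end Vale.Agent.P243b
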