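import Mathlib
import Vale.Agent.P243b.EllAlg

/-!
An extremal inscribed ellipsoid of a symmetric body and its first-order condition.
-/

open Matrix Set Filter Topology

namespace Vale.Agent.P243b

lemma isCompact_convexHull_of_compact {E : Type*} [NormedAddCommGroup E] [NormedSpace ℝ E]
    [FiniteDimensional ℝ E] {s : Set E} (hs : IsCompact s) : IsCompact (convexHull ℝ s) := by
  rcases s.eq_empty_or_nonempty with rfl | ⟨z₀, hz₀⟩
  · simp
  let N := Module.finrank ℝ E + 1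
  let f : (Fin N → ℝ) × (Fin N → E) → E := fun p => ∑ i, p.1 i • p.2 i
  have hf : Continuous f := by fun_prop
  have hc := ((isCompact_stdSimplex ℝ (Fin N)).prod
    (isCompact_univ_pi (fun _ : Fin N => hs))).image hf
  suffices e : convexHull ℝ s = f '' (stdSimplex ℝ (Fin N) ×ˢ Set.univ.pi fun _ => s) by
    rw [e]; exact hc
  ext x
  constructor
  · intro hx
    obtain ⟨κ, hκ, z, w, hz, hind, hw0, hw1, hwx⟩ := eq_pos_convex_span_of_mem_convexHull hx
    have hcard : Fintype.card κ ≤ N :=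
      hind.card_le_finrank_succ.trans (Nat.add_le_add_right (Submodule.finrank_le _) 1)
    let j : κ → Fin N := fun k => Fin.castLE hcard (Fintype.equivFin κ k)
    have hj : Function.Injective j :=
      (Fin.castLE_injective hcard).comp (Fintype.equivFin κ).injective
    have hsum : ∑ i, Function.extend j w 0 i = ∑ k, w k := by
      refine (Fintype.sum_of_injective j hj _ _ (fun i hi => ?_) fun k => ?_).symm
      · exact Function.extend_apply' _ _ _ (by simpa using hi)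
      · exact (hj.extend_apply _ _ k).symm
    refine ⟨(Function.extend j w 0, Function.extend j z (fun _ => z₀)), ⟨⟨?_, ?_⟩, ?_⟩, ?_⟩
    · intro i
      simp only
      by_cases hi : ∃ k, j k = i
      · obtain ⟨k, rfl⟩ := hi
        rw [hj.extend_apply]; exact (hw0 k).le
      · rw [Function.extend_apply' _ _ _ hi]; rfl
    · simp only; rw [hsum, hw1]
    · intro i _
      by_cases hi : ∃ k, j k = i
      · obtain ⟨k, rfl⟩ := hi
        simp only [hj.extend_apply]; exact hz (mem_range_self k)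
      · simp only [Function.extend_apply' _ _ _ hi]; exact hz₀
    · show ∑ i, Function.extend j w 0 i • Function.extend j z (fun _ => z₀) i = x
      rw [← hwx]
      refine (Fintype.sum_of_injective j hj _ _ (fun i hi => ?_) fun k => ?_).symm
      · simp [Function.extend_apply' w _ _ (by simpa using hi : ¬ ∃ k, j k = i)]
      · simp [hj.extend_apply]
  · rintro ⟨⟨w, z⟩, ⟨⟨hw0, hw1⟩, hz⟩, rfl⟩
    exact mem_convexHull_of_exists_fintype w z hw0 hw1 (fun i => hz i (mem_univ i)) rfl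

/-- Coordinate unit sphere. -/
def sphere3 : Set V3 := {x | nsq x = 1}

lemma isCompact_nsq_le (r : ℝ) : IsCompact {x : V3 | nsq x ≤ r} := by
  refine (isCompact_closedBall (0 : V3) (|r| + 1)).of_isClosed_subset
    (isClosed_le (by unfold nsq; fun_prop) continuous_const) fun x hx => ?_
  simp only [mem_closedBall_zero_iff]
  refine (pi_norm_le_iff_of_nonneg (by positivity)).2 fun i => ?_
  have hx' : x ⬝ᵥ x ≤ r := hx
  have h1 : x i * x i ≤ x ⬝ᵥ x :=
    Finset.single_le_sum (f := fun j => x j * x j) (fun j _ => mul_self_nonneg _) (Finset.mem_univ i)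
  rw [Real.norm_eq_abs]
  nlinarith [sq_abs (x i), le_abs_self r, abs_nonneg (x i), abs_nonneg r]

lemma isCompact_sphere3 : IsCompact sphere3 :=
  (isCompact_nsq_le 1).of_isClosed_subset (isClosed_eq (by unfold nsq; fun_prop) continuous_const)
    fun _ h => le_of_eq h

lemma sphere3_nonempty : sphere3.Nonempty := ⟨![1, 0, 0], by simp [sphere3, nsq, vec3_dotProduct]⟩

/-- The data attached to an extremal ellipsoid. -/
structure Extremal (K : Set V3) where
  M : M3
  F : ℝ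
  F_pos : 0 < F
  det_ne : M.det ≠ 0
  ball_sub : ∀ y : V3, nsq y ≤ 1 → M *ᵥ y ∈ K
  least : ∀ u : V3, nsq u = 1 → F ^ 2 ≤ nsq (M.adjugate *ᵥ u)
  ι : Type
  fι : Fintype ι
  d : ι → ℝ
  n : ι → V3
  d_nonneg : ∀ i, 0 ≤ d i
  n_unit : ∀ i, nsq (n i) = 1
  contact : ∀ i, ∀ x ∈ K, |(n i ᵥ* M.adjugate) ⬝ᵥ x| ≤ |M.det|
  d_sum : ∑ i, d i = 2
  κ : Type
  fκ : Fintype κ
  l : κ → ℝ
  w : κ → V3
  l_nonneg : ∀ k, 0 ≤ l k
  l_sum : ∑ k, l k = 1
  w_unit : ∀ k, nsq (w k) = 1
  w_low : ∀ k, M.adjugate *ᵥ (M.adjugateᵀ *ᵥ w k) = F ^ 2 • w k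
  balance : ∀ x y : V3, ∑ i, d i * ((n i ⬝ᵥ x) * (n i ⬝ᵥ y))
    = x ⬝ᵥ y - ∑ k, l k * ((w k ⬝ᵥ x) * (w k ⬝ᵥ y))

variable {K : Set V3}

/-- A minimiser of the stretched length is a lowest singular direction. -/
lemma low_of_min {G : M3} {F : ℝ} (hle : ∀ u, nsq u = 1 → F ^ 2 ≤ nsq (G *ᵥ u)) {u : V3}
    (hu : nsq u = 1) (heq : nsq (G *ᵥ u) = F ^ 2) : Gᵀ *ᵥ (G *ᵥ u) = F ^ 2 • u := by
  have hall : ∀ x, F ^ 2 * nsq x ≤ nsq (G *ᵥ x) := by
    intro x
    by_cases hx : x = 0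
    · simp [hx, nsq]
    obtain ⟨c, hc, h1⟩ := exists_normalize hx
    have := hle _ h1
    rw [mulVec_smul, nsq_smul] at this
    rw [nsq_smul] at h1
    calc F ^ 2 * nsq x ≤ (c ^ 2 * nsq (G *ᵥ x)) * nsq x :=
          mul_le_mul_of_nonneg_right this (nsq_nonneg x)
      _ = nsq (G *ᵥ x) * (c ^ 2 * nsq x) := by ring
      _ = nsq (G *ᵥ x) := by rw [h1, mul_one]
  have hlin : ∀ y, (G *ᵥ u) ⬝ᵥ (G *ᵥ y) = F ^ 2 * (u ⬝ᵥ y) := by
    intro y
    have hq : ∀ t : ℝ, 0 ≤ 2 * t * ((G *ᵥ u) ⬝ᵥ (G *ᵥ y) - F ^ 2 * (u ⬝ᵥ y))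
        + t ^ 2 * (nsq (G *ᵥ y) - F ^ 2 * nsq y) := by
      intro t
      have := hall (u + t • y)
      rw [mulVec_add, mulVec_smul, nsq_add, nsq_add, nsq_smul, nsq_smul, dotProduct_smul,
        dotProduct_smul, smul_eq_mul, smul_eq_mul, hu, heq] at this
      linarith
    set a := (G *ᵥ u) ⬝ᵥ (G *ᵥ y) - F ^ 2 * (u ⬝ᵥ y) with ha
    set b := nsq (G *ᵥ y) - F ^ 2 * nsq y with hb
    have hb0 : 0 ≤ b := sub_nonneg.2 (hall y)
    by_contra hne
    have ha0 : a ≠ 0 := fun h => hne (by linarith)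
    have h3 := hq (-a / (b + 1))
    have : 2 * (-a / (b + 1)) * a + (-a / (b + 1)) ^ 2 * b = -(a ^ 2 * (b + 2)) / (b + 1) ^ 2 := by
      field_simp; ring
    rw [this] at h3
    have : 0 < a ^ 2 * (b + 2) / (b + 1) ^ 2 := by positivity
    rw [neg_div] at h3
    linarith
  refine dotProduct_eq _ _ fun y => ?_
  rw [dotProduct_comm, dotProduct_mulVec, vecMul_transpose, dotProduct_comm, hlin y, smul_dotProduct,
    smul_eq_mul]

theorem exists_extremal (hK : IsCompact K) (hKc : Convex ℝ K) (hsym : ∀ x ∈ K, -x ∈ K)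
    {r : ℝ} (hr : 0 < r) (hball : ∀ x, nsq x ≤ r ^ 2 → x ∈ K) : Nonempty (Extremal K) := by
  -- maximise
  let A : Set M3 := {M | ∀ y, nsq y ≤ 1 → M *ᵥ y ∈ K}
  have hAc : IsClosed A := by
    have e : A = ⋂ y ∈ {y : V3 | nsq y ≤ 1}, (fun M : M3 => M *ᵥ y) ⁻¹' K := by
      ext M; simp [A]
    rw [e]
    exact isClosed_biInter fun y _ => hK.isClosed.preimage (by fun_prop)
  obtain ⟨R, hR⟩ := hK.isBounded.exists_norm_le
  have hA : IsCompact A := by
    have hb : IsCompact {M : M3 | ∀ i j, M i j ∈ Icc (-R) R} := by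
      have := isCompact_univ_pi fun _ : Fin 3 => isCompact_univ_pi fun _ : Fin 3 =>
        isCompact_Icc (a := -R) (b := R)
      show IsCompact {M : Fin 3 → Fin 3 → ℝ | ∀ i j, M i j ∈ Icc (-R) R}
      have e : {M : Fin 3 → Fin 3 → ℝ | ∀ i j, M i j ∈ Icc (-R) R}
          = Set.univ.pi fun _ : Fin 3 => Set.univ.pi fun _ : Fin 3 => Icc (-R) R :=
        Set.ext fun M => ⟨fun h i _ j _ => h i j, fun h i j => h i trivial j trivial⟩
      rw [e]; exact this
    refine hb.of_isClosed_subset hAc fun (M : M3) hM i j => ?_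
    have h := (norm_le_pi_norm _ i).trans (hR _ (hM (Pi.single j 1) (by simp [nsq])))
    rw [Real.norm_eq_abs, mulVec_single_one] at h
    exact abs_le.1 h
  let val : M3 → ℝ := fun M => sInf ((fun u => nsq (M.adjugate *ᵥ u)) '' sphere3)
  have hval : Continuous val := isCompact_sphere3.continuous_sInf
    (f := fun (M : M3) (u : V3) => nsq (M.adjugate *ᵥ u)) (by unfold nsq; fun_prop)
  have hmin : ∀ M : M3, ∃ u, nsq u = 1 ∧ nsq (M.adjugate *ᵥ u) = val M ∧
      ∀ z, nsq z = 1 → val M ≤ nsq (M.adjugate *ᵥ z) := by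
    intro M
    obtain ⟨u, hu, e⟩ := isCompact_sphere3.exists_sInf_image_eq sphere3_nonempty
      (f := fun u => nsq (M.adjugate *ᵥ u)) (by unfold nsq; fun_prop)
    exact ⟨u, hu, e.symm, fun z hz => csInf_le ⟨0, by rintro _ ⟨y, -, rfl⟩; exact nsq_nonneg _⟩
      ⟨z, hz, rfl⟩⟩
  have hrA : r • (1 : M3) ∈ A := fun y hy => hball _ (by
    rw [smul_mulVec, one_mulVec, nsq_smul]; nlinarith [sq_nonneg r])
  obtain ⟨M, hM, hmax⟩ := hA.exists_isMaxOn ⟨_, hrA⟩ hval.continuousOn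
  obtain ⟨u0, hu0, hu0e, hleast⟩ := hmin M
  have hpos : 0 < val M := by
    obtain ⟨u, hu, e, -⟩ := hmin (r • (1 : M3))
    refine lt_of_lt_of_le ?_ (hmax hrA)
    rw [← e, adjugate_smul, adjugate_one, smul_mulVec, one_mulVec, nsq_smul, hu]
    positivity
  set F := Real.sqrt (val M) with hF
  have hF2 : F ^ 2 = val M := Real.sq_sqrt hpos.le
  have hdet : M.det ≠ 0 := by
    intro h0
    have hGd : M.adjugate.det = 0 := by rw [det_adjugate, h0]; simp
    obtain ⟨x, hx0, hx⟩ := exists_mulVec_eq_zero_iff.2 hGd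
    obtain ⟨c, -, hc⟩ := exists_normalize hx0
    have := hleast _ hc
    rw [mulVec_smul, hx] at this
    simp [nsq] at this
    linarith
  set G := M.adjugate with hG
  set D := M.det with hD
  have least : ∀ u, nsq u = 1 → F ^ 2 ≤ nsq (G *ᵥ u) := fun u hu => hF2 ▸ hleast u hu
  -- the two compact sets of rank-one forms
  let C : Set V3 := sphere3 ∩ ⋂ x ∈ K, {n | |(n ᵥ* G) ⬝ᵥ x| ≤ |D|}
  have hC : IsCompact C := isCompact_sphere3.inter_right
    (isClosed_biInter fun x _ => isClosed_le (by fun_prop) continuous_const)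
  let W : Set V3 := sphere3 ∩ {w | G *ᵥ (Gᵀ *ᵥ w) = F ^ 2 • w}
  have hW : IsCompact W :=
    isCompact_sphere3.inter_right (isClosed_eq (by fun_prop) (by fun_prop))
  let qa : V3 → (Fin 3 → Fin 3 → ℝ) := fun n i j => 2 * (n i * n j)
  let qb : V3 → (Fin 3 → Fin 3 → ℝ) := fun w i j => (if i = j then (1:ℝ) else 0) - w i * w j
  by_cases hmeet : (convexHull ℝ (qa '' C) ∩ convexHull ℝ (qb '' W)).Nonempty
  · obtain ⟨P, hPa, hPb⟩ := hmeet
    obtain ⟨ι, fι, a, za, ha0, ha1, hza, hPa'⟩ := mem_convexHull_iff_exists_fintype.1 hPa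
    obtain ⟨κ, fκ, b, zb, hb0, hb1, hzb, hPb'⟩ := mem_convexHull_iff_exists_fintype.1 hPb
    choose n hn hne using hza
    choose w hw hwe using hzb
    refine ⟨{
      M := M
      F := F
      F_pos := Real.sqrt_pos.2 hpos
      det_ne := hdet
      ball_sub := hM
      least := least
      ι := ι
      fι := fι
      d := fun i => 2 * a i
      n := n
      d_nonneg := fun i => by have := ha0 i; positivity
      n_unit := fun i => (hn i).1
      contact := fun i x hx => mem_iInter₂.1 (hn i).2 x hx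
      d_sum := by rw [← Finset.mul_sum, ha1, mul_one]
      κ := κ
      fκ := fκ
      l := b
      w := w
      l_nonneg := hb0
      l_sum := hb1
      w_unit := fun k => (hw k).1
      w_low := fun k => (hw k).2
      balance := ?_ }⟩
    intro x y
    have e : ∀ i j, ∑ t, 2 * a t * (n t i * n t j)
        = (if i = j then (1:ℝ) else 0) - ∑ t, b t * (w t i * w t j) := by
      intro i j
      have h1 := congrFun (congrFun (hPa'.trans hPb'.symm) i) j
      simp only [Finset.sum_apply, Pi.smul_apply, smul_eq_mul, ← hne, ← hwe, qa, qb, mul_sub,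
        Finset.sum_sub_distrib, ← Finset.sum_mul, hb1, one_mul] at h1
      rw [← h1]
      exact Finset.sum_congr rfl fun t _ => by ring
    have hl : ∀ (γ : Type) (_ : Fintype γ) (c : γ → ℝ) (z : γ → V3),
        ∑ t, c t * ((z t ⬝ᵥ x) * (z t ⬝ᵥ y))
          = ∑ i, ∑ j, x i * y j * ∑ t, c t * (z t i * z t j) := by
      intro γ _ c z
      simp only [dotProduct, Finset.sum_mul_sum]
      rw [Finset.sum_congr rfl fun t _ => Finset.mul_sum _ _ _, Finset.sum_comm]
      refine Finset.sum_congr rfl fun i _ => ?_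
      rw [Finset.sum_congr rfl fun t _ => Finset.mul_sum _ _ _, Finset.sum_comm]
      refine Finset.sum_congr rfl fun j _ => ?_
      rw [Finset.mul_sum]
      exact Finset.sum_congr rfl fun t _ => by ring
    rw [hl, hl]
    simp only [e, mul_sub, Finset.sum_sub_distrib]
    simp [dotProduct]
  -- otherwise the ellipsoid can be improved
  exfalso
  have hcA := isCompact_convexHull_of_compact
    (hC.image (f := qa) (by fun_prop))
  have hcB := isCompact_convexHull_of_compact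
    (hW.image (f := qb) (by fun_prop))
  obtain ⟨φ, s, t, hs, hst, ht⟩ := geometric_hahn_banach_compact_closed (convex_convexHull ℝ _) hcA
    (convex_convexHull ℝ _) hcB.isClosed (disjoint_iff_inter_eq_empty.2 (not_nonempty_iff_eq_empty.1 hmeet))
  let c : Fin 3 → Fin 3 → ℝ := fun i j => φ (Pi.single i (Pi.single j 1))
  have hφ : ∀ A : Fin 3 → Fin 3 → ℝ, φ A = ∑ i, ∑ j, A i j * c i j := by
    intro A
    have e : A = ∑ i, ∑ j, A i j • (Pi.single i (Pi.single j (1:ℝ)) : Fin 3 → Fin 3 → ℝ) := by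
      ext i j
      fin_cases i <;> fin_cases j <;> simp [Fin.sum_univ_three, Pi.single_apply]
    conv_lhs => rw [e]
    simp [map_sum, map_smul, c]
  let H : M3 := Matrix.of fun i j => (c i j + c j i) / 2 - if i = j then s / 2 else 0
  have hHC : ∀ n ∈ C, n ⬝ᵥ (H *ᵥ n) < 0 := by
    intro n hn
    have h := hs _ (subset_convexHull ℝ _ ⟨n, hn, rfl⟩)
    rw [hφ] at h
    have h1 : n ⬝ᵥ n = 1 := hn.1
    simp only [qa, Fin.sum_univ_three] at h
    simp [H, mulVec, dotProduct, Fin.sum_univ_three] at h1 ⊢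
    linear_combination h / 2 + (-s / 2) * h1
  have hHW : ∀ w ∈ W, 0 < w ⬝ᵥ (H.trace • w - H *ᵥ w) := by
    intro w hw
    have h := ht _ (subset_convexHull ℝ _ ⟨w, hw, rfl⟩)
    rw [hφ] at h
    have h1 : w ⬝ᵥ w = 1 := hw.1
    have hh : s < ∑ i, ∑ j, qb w i j * c i j := hst.trans h
    rw [dotProduct_sub, dotProduct_smul, smul_eq_mul, h1]
    simp [qb, Fin.sum_univ_three] at hh
    simp [H, mulVec, dotProduct, Fin.sum_univ_three, trace, diag] at h1 ⊢
    linear_combination hh + (-s / 2) * h1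
  have hfail : ∀ k : ℕ,
      (∃ n : V3, nsq n = 1 ∧ 1 < nsq (n ᵥ* (1 + (1 / ((k:ℝ) + 1)) • H)) ∧
        ∀ x ∈ K, ((n ᵥ* G) ⬝ᵥ x) ^ 2 ≤ D ^ 2 * nsq (n ᵥ* (1 + (1 / ((k:ℝ) + 1)) • H))) ∨
      ∃ u : V3, nsq u = 1 ∧ nsq ((1 + (1 / ((k:ℝ) + 1)) • H).adjugate *ᵥ (G *ᵥ u)) ≤ F ^ 2 := by
    intro k
    set e := 1 / ((k:ℝ) + 1) with he
    by_cases hin : M * (1 + e • H) ∈ A
    · right
      obtain ⟨u, hu, hue, -⟩ := hmin (M * (1 + e • H))
      refine ⟨u, hu, ?_⟩
      rw [mulVec_mulVec, ← adjugate_mul_distrib, hue, hF2]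
      exact hmax hin
    · left
      simp only [A, mem_ofPred_eq, not_forall] at hin
      obtain ⟨z, hz, hzK⟩ := hin
      obtain ⟨f, s', hfs, hfx⟩ := geometric_hahn_banach_closed_point hKc hK.isClosed hzK
      let a : V3 := fun i => f (Pi.single i 1)
      have hf : ∀ x, f x = a ⬝ᵥ x := by
        intro x
        conv_lhs => rw [pi_eq_sum_univ' x]
        simp [map_sum, map_smul, a, dotProduct, mul_comm]
      simp only [hf] at hfs hfx
      have hs0 : 0 < s' := by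
        have := hfs 0 (hball 0 (by simp [nsq]; positivity))
        simpa using this
      have habs : ∀ x ∈ K, |a ⬝ᵥ x| < s' := fun x hx => abs_lt.2
        ⟨by have := hfs _ (hsym x hx); rw [dotProduct_neg] at this; linarith, hfs x hx⟩
      set m := a ᵥ* M with hm
      have hm0 : m ≠ 0 := by
        intro h0
        rw [← mulVec_mulVec, dotProduct_mulVec, ← hm, h0, zero_dotProduct] at hfx
        linarith
      obtain ⟨γ, hγ, hn⟩ := exists_normalize hm0
      have hin1 : γ * (m ⬝ᵥ (γ • m)) = γ * γ * nsq m := by rw [dotProduct_smul, nsq, smul_eq_mul]; ring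
      have hsm : 1 ≤ γ * s' := by
        have h2 := habs _ (hM (γ • m) hn.le)
        rw [dotProduct_mulVec, ← hm] at h2
        have h3 := (abs_lt.1 h2).2
        have h4 := mul_lt_mul_of_pos_left h3 hγ
        rw [hin1] at h4
        rw [nsq_smul] at hn
        linarith
      have hbig : γ * s' < (γ • m) ᵥ* (1 + e • H) ⬝ᵥ z := by
        rw [← mulVec_mulVec, dotProduct_mulVec, ← hm, dotProduct_mulVec] at hfx
        rw [smul_vecMul, smul_dotProduct, smul_eq_mul]
        exact mul_lt_mul_of_pos_left hfx hγ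
      set N := nsq ((γ • m) ᵥ* (1 + e • H)) with hN
      have hge : (γ * s') ^ 2 < N := by
        have h2 := dot_sq_le ((γ • m) ᵥ* (1 + e • H)) z
        rw [← hN] at h2
        have h3 := mul_le_mul_of_nonneg_left hz (nsq_nonneg ((γ • m) ᵥ* (1 + e • H)))
        rw [← hN] at h3
        nlinarith
      refine ⟨γ • m, hn, by nlinarith, fun x hx => ?_⟩
      have e1 : (γ • m) ᵥ* G = (γ * D) • a := by
        rw [hm, smul_vecMul, vecMul_vecMul, hG, mul_adjugate, vecMul_smul, vecMul_one, smul_smul]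
      rw [e1, smul_dotProduct, smul_eq_mul]
      have h2 := sq_lt_sq' (abs_lt.1 (habs x hx)).1 (abs_lt.1 (habs x hx)).2
      calc (γ * D * (a ⬝ᵥ x)) ^ 2 = D ^ 2 * (γ ^ 2 * (a ⬝ᵥ x) ^ 2) := by ring
        _ ≤ D ^ 2 * N := by
          refine mul_le_mul_of_nonneg_left ?_ (sq_nonneg _)
          nlinarith [mul_le_mul_of_nonneg_left h2.le (sq_nonneg γ)]
  -- extract a subsequence of one of the two kinds
  let P1 : ℕ → V3 → Prop := fun k n => nsq n = 1 ∧ 1 < nsq (n ᵥ* (1 + (1 / ((k:ℝ) + 1)) • H)) ∧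
    ∀ x ∈ K, ((n ᵥ* G) ⬝ᵥ x) ^ 2 ≤ D ^ 2 * nsq (n ᵥ* (1 + (1 / ((k:ℝ) + 1)) • H))
  have htend : ∀ g : ℕ → ℕ, StrictMono g → Tendsto (fun k => 1 / ((g k : ℝ) + 1)) atTop (𝓝 0) :=
    fun g hg => tendsto_one_div_add_atTop_nhds_zero_nat.comp hg.tendsto_atTop
  rcases frequently_or_distrib.1 ((Eventually.of_forall hfail).frequently (f := atTop)) with h1 | h2
  · obtain ⟨g, hg, hg1⟩ := extraction_of_frequently_atTop h1
    choose nn hnn1 hnn2 hnn3 using hg1
    obtain ⟨n, hn, g2, hg2, hlim⟩ := isCompact_sphere3.tendsto_subseq (x := nn) hnn1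
    have he := htend (g ∘ g2) (hg.comp hg2)
    have hnC : n ∈ C := by
      refine ⟨hn, mem_iInter₂.2 fun x hx => ?_⟩
      rw [mem_ofPred_eq, ← sq_le_sq]
      have hc : Continuous fun p : V3 × ℝ => D ^ 2 * nsq (p.1 ᵥ* (1 + p.2 • H)) := by
        unfold nsq; fun_prop
      have l1 := (show Continuous fun p : V3 => ((p ᵥ* G) ⬝ᵥ x) ^ 2 by fun_prop).tendsto n |>.comp hlim
      have l2 := (hc.tendsto (n, 0)).comp (hlim.prodMk_nhds he)
      have l3 := le_of_tendsto_of_tendsto' l1 l2 fun k => hnn3 (g2 k) x hx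
      have h1' : nsq n = 1 := hn
      simpa [h1'] using l3
    have hq : ∀ k, 0 ≤ 2 * (nn (g2 k) ⬝ᵥ (H *ᵥ nn (g2 k)))
        + (1 / ((g (g2 k) : ℝ) + 1)) * nsq (nn (g2 k) ᵥ* H) := by
      intro k
      have h := hnn2 (g2 k)
      rw [vecMul_add, vecMul_one, vecMul_smul, nsq_add, nsq_smul, dotProduct_smul, smul_eq_mul,
        hnn1 (g2 k)] at h
      have hep : (0:ℝ) < 1 / ((g (g2 k) : ℝ) + 1) := by positivity
      rw [dotProduct_mulVec, dotProduct_comm]
      by_contra hneg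
      nlinarith [mul_neg_of_pos_of_neg hep (not_le.1 hneg)]
    have hc : Continuous fun p : V3 × ℝ => 2 * (p.1 ⬝ᵥ (H *ᵥ p.1)) + p.2 * nsq (p.1 ᵥ* H) := by
      unfold nsq; fun_prop
    have := ge_of_tendsto' ((hc.tendsto (n, 0)).comp (hlim.prodMk_nhds he)) hq
    simp only [zero_mul, add_zero] at this
    linarith [hHC n hnC]
  · obtain ⟨g, hg, hg1⟩ := extraction_of_frequently_atTop h2
    choose uu huu1 huu2 using hg1
    obtain ⟨u, hu, g2, hg2, hlim⟩ := isCompact_sphere3.tendsto_subseq (x := uu) huu1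
    have he := htend (g ∘ g2) (hg.comp hg2)
    have hq : ∀ k, 2 * ((G *ᵥ uu (g2 k)) ⬝ᵥ (H.trace • (G *ᵥ uu (g2 k)) - H *ᵥ (G *ᵥ uu (g2 k))))
        + (1 / ((g (g2 k) : ℝ) + 1)) * (nsq (H.trace • (G *ᵥ uu (g2 k)) - H *ᵥ (G *ᵥ uu (g2 k))
          + (1 / ((g (g2 k) : ℝ) + 1)) • (H.adjugate *ᵥ (G *ᵥ uu (g2 k))))
          + 2 * ((G *ᵥ uu (g2 k)) ⬝ᵥ (H.adjugate *ᵥ (G *ᵥ uu (g2 k))))) ≤ 0 := by
      intro k
      set e := 1 / ((g (g2 k) : ℝ) + 1)
      set w := G *ᵥ uu (g2 k)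
      set a := H.trace • w - H *ᵥ w
      set b := H.adjugate *ᵥ w
      have h := huu2 (g2 k)
      rw [adjugate_one_add] at h
      have h0 := least _ (huu1 (g2 k))
      have hep : (0:ℝ) < e := by positivity
      have e1 : w + e • a + e ^ 2 • b = w + e • (a + e • b) := by rw [smul_add, smul_smul, add_assoc, sq]
      rw [e1, nsq_add, nsq_smul, dotProduct_smul, dotProduct_add, dotProduct_smul, smul_eq_mul,
        smul_eq_mul] at h
      by_contra hneg
      nlinarith [mul_pos hep (not_le.1 hneg)]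
    have hc : Continuous fun p : V3 × ℝ =>
        2 * ((G *ᵥ p.1) ⬝ᵥ (H.trace • (G *ᵥ p.1) - H *ᵥ (G *ᵥ p.1)))
        + p.2 * (nsq (H.trace • (G *ᵥ p.1) - H *ᵥ (G *ᵥ p.1) + p.2 • (H.adjugate *ᵥ (G *ᵥ p.1)))
          + 2 * ((G *ᵥ p.1) ⬝ᵥ (H.adjugate *ᵥ (G *ᵥ p.1)))) := by
      unfold nsq; fun_prop
    have hle0 := le_of_tendsto' ((hc.tendsto (u, 0)).comp (hlim.prodMk_nhds he)) hq
    simp only [zero_mul, add_zero] at hle0
    have hmin0 : nsq (G *ᵥ u) = F ^ 2 := by
      refine le_antisymm ?_ (least u hu)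
      have hc2 : Continuous fun p : V3 × ℝ => nsq ((1 + p.2 • H).adjugate *ᵥ (G *ᵥ p.1)) := by
        unfold nsq; fun_prop
      have := le_of_tendsto' ((hc2.tendsto (u, 0)).comp (hlim.prodMk_nhds he)) fun k => huu2 (g2 k)
      simpa using this
    have hGu := low_of_min least hu hmin0
    have hF0 : F ≠ 0 := (Real.sqrt_pos.2 hpos).ne'
    have hwW : F⁻¹ • (G *ᵥ u) ∈ W := by
      refine ⟨?_, ?_⟩
      · show nsq _ = 1
        rw [nsq_smul, hmin0]; field_simp
      · show _ = _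
        rw [mulVec_smul, hGu, mulVec_smul, mulVec_smul, smul_smul, smul_smul, mul_comm]
    have h0 := hHW _ hwW
    have e2 : (F⁻¹ • (G *ᵥ u)) ⬝ᵥ (H.trace • F⁻¹ • (G *ᵥ u) - H *ᵥ (F⁻¹ • (G *ᵥ u)))
        = F⁻¹ ^ 2 * ((G *ᵥ u) ⬝ᵥ (H.trace • (G *ᵥ u) - H *ᵥ (G *ᵥ u))) := by
      simp only [mulVec_smul, dotProduct_sub, dotProduct_smul, smul_dotProduct, smul_eq_mul]; ring
    rw [e2] at h0
    nlinarith [sq_nonneg F⁻¹]

end Vale.Agent.P243b
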