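import Mathlib
import Vale.Agent.P243.Defs
import Vale.Agent.P243b.Bang

/-!
Cylinder coverings whose axes are all parallel to one plane: the half-area bound.
-/

open MeasureTheory Set Vale.Agent.P243

namespace Vale.Agent.P243b

lemma finrank_perp {u : Space} (hu : ‖u‖ = 1) : Module.finrank ℝ (perp u) = 2 := by
  haveI : Fact (Module.finrank ℝ Space = 2 + 1) := ⟨by simp⟩
  refine Submodule.finrank_orthogonal_span_singleton ?_
  intro h; simp [h] at hu

lemma exists_unit_orth (a b : Space) :
    ∃ v : Space, ‖v‖ = 1 ∧ inner ℝ v a = (0:ℝ) ∧ inner ℝ v b = (0:ℝ) := by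
  have hle : Module.finrank ℝ (Submodule.span ℝ (Set.range ![a, b])) ≤ 2 := by
    have := finrank_range_le_card (R := ℝ) ![a, b]
    simpa [Set.finrank] using this
  have h := Submodule.finrank_add_finrank_orthogonal (Submodule.span ℝ (Set.range ![a, b]))
  have hne : (Submodule.span ℝ (Set.range ![a, b]))ᗮ ≠ ⊥ := by
    intro h0
    rw [h0, finrank_bot, finrank_euclideanSpace_fin] at h
    omega
  obtain ⟨v, hv, hv0⟩ := Submodule.exists_mem_ne_zero_of_ne_bot hne
  have h2 : ∀ z ∈ Set.range ![a, b], inner ℝ v z = (0:ℝ) := fun z hz => by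
    rw [real_inner_comm]
    exact (Submodule.mem_orthogonal _ v).1 hv z (Submodule.subset_span hz)
  refine ⟨‖v‖⁻¹ • v, norm_smul_inv_norm hv0, ?_, ?_⟩
  · rw [real_inner_smul_left, h2 a ⟨0, rfl⟩, mul_zero]
  · rw [real_inner_smul_left, h2 b ⟨1, rfl⟩, mul_zero]

/-- Coordinates in the plane orthogonal to a unit vector. -/
lemma plane_coords {u v n : Space} (hu : ‖u‖ = 1) (hv : ‖v‖ = 1) (hn : ‖n‖ = 1)
    (huv : inner ℝ u v = (0:ℝ)) (hun : inner ℝ u n = (0:ℝ)) (hvn : inner ℝ v n = (0:ℝ)) :
    ∃ ψ : ℝ × ℝ → perp u, MeasurePreserving ψ volume volume ∧ MeasurableEmbedding ψ ∧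
      ∀ x : Space, (perp u).orthogonalProjectionOnto x = ψ (inner ℝ v x, inner ℝ n x) := by
  have mv : v ∈ perp u := Submodule.mem_orthogonal_singleton_iff_inner_right.2 huv
  have mn : n ∈ perp u := Submodule.mem_orthogonal_singleton_iff_inner_right.2 hun
  let f : WithLp 2 (ℝ × ℝ) →ₗᵢ[ℝ] perp u :=
    { toLinearMap := ((LinearMap.toSpanSingleton ℝ (perp u) ⟨v, mv⟩).coprod
        (LinearMap.toSpanSingleton ℝ (perp u) ⟨n, mn⟩)).comp
          (WithLp.linearEquiv 2 ℝ (ℝ × ℝ)).toLinearMap
      norm_map' := by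
        intro p
        change ‖(WithLp.ofLp p).1 • (⟨v, mv⟩ : perp u) + (WithLp.ofLp p).2 • ⟨n, mn⟩‖ = ‖p‖
        rw [← sq_eq_sq₀ (norm_nonneg _) (norm_nonneg _), WithLp.prod_norm_sq_eq_of_L2,
          Submodule.coe_norm]
        simp only [Submodule.coe_add, Submodule.coe_smul]
        rw [norm_add_sq_real, real_inner_smul_left, real_inner_smul_right, hvn, norm_smul,
          norm_smul, hv, hn]
        simp }
  have hd : Module.finrank ℝ (WithLp 2 (ℝ × ℝ)) = Module.finrank ℝ (perp u) := by
    rw [LinearEquiv.finrank_eq (WithLp.linearEquiv 2 ℝ (ℝ × ℝ)), finrank_perp hu]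
    simp
  let L := f.toLinearIsometryEquiv hd
  have hL : ∀ z, L z = f z := fun z => rfl
  refine ⟨fun p => L (WithLp.toLp 2 p), L.measurePreserving.comp (WithLp.volume_preserving_toLp _ _),
    L.toMeasurableEquiv.measurableEmbedding.comp
      (MeasurableEquiv.toLp 2 (ℝ × ℝ)).measurableEmbedding, fun x => ?_⟩
  obtain ⟨z, hz⟩ := L.surjective ((perp u).orthogonalProjectionOnto x)
  suffices h : WithLp.ofLp z = (inner ℝ v x, inner ℝ n x) by
    show _ = L (WithLp.toLp 2 _)
    rw [← hz, ← h]
  have e1 := Submodule.inner_orthogonalProjectionOnto_eq_of_mem_left (⟨v, mv⟩ : perp u) x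
  have e2 := Submodule.inner_orthogonalProjectionOnto_eq_of_mem_left (⟨n, mn⟩ : perp u) x
  have e : ((perp u).orthogonalProjectionOnto x : Space)
      = (WithLp.ofLp z).1 • v + (WithLp.ofLp z).2 • n := by rw [← hz]; rfl
  simp only [Submodule.coe_inner] at e1 e2
  rw [e, inner_add_right, inner_smul_right, inner_smul_right, hvn,
    real_inner_self_eq_norm_sq, hv] at e1
  rw [e, inner_add_right, inner_smul_right, inner_smul_right, real_inner_comm v n, hvn,
    real_inner_self_eq_norm_sq, hn] at e2
  refine Prod.ext ?_ ?_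
  · simpa using e1
  · simpa using e2

variable {K : Set Space} (n : Space)

/-- The slice of `K` at height `z`, moved into the plane orthogonal to `n`. -/
def slice (K : Set Space) (z : ℝ) : Set (perp n) := {y | (y : Space) + z • n ∈ K}

lemma slice_compact (hK : IsCompact K) (z : ℝ) : IsCompact (slice n K z) := by
  have h1 : IsCompact ((fun y : Space => y + z • n) ⁻¹' K) :=
    (Homeomorph.addRight (z • n)).isCompact_preimage.2 hK
  exact (Submodule.closed_of_finiteDimensional (perp n)).isClosedEmbedding_subtypeVal.isCompact_preimage h1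

lemma slice_convex (hKv : Convex ℝ K) (z : ℝ) : Convex ℝ (slice n K z) :=
  (hKv.translate_preimage_left (z • n)).linear_preimage (perp n).subtype

lemma inner_n (hn : ‖n‖ = 1) (y : perp n) (z : ℝ) : inner ℝ n ((y : Space) + z • n) = z := by
  rw [inner_add_right, Submodule.mem_orthogonal_singleton_iff_inner_right.1 y.2,
    real_inner_smul_right, real_inner_self_eq_norm_sq, hn]
  ring

lemma slice_mk (hn : ‖n‖ = 1) {x : Space} (hx : x ∈ K) :
    ∃ y : perp n, y ∈ slice n K (inner ℝ n x) ∧ (y : Space) = x - (inner ℝ n x) • n := by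
  refine ⟨⟨x - (inner ℝ n x) • n, Submodule.mem_orthogonal_singleton_iff_inner_right.2 ?_⟩, ?_, rfl⟩
  · rw [inner_sub_right, real_inner_smul_right, real_inner_self_eq_norm_sq, hn]; ring
  · simpa [slice] using hx

/-- Two points at each of two heights average to two points of the middle slice. -/
lemma fibre_pair (hK : IsCompact K) (hKv : Convex ℝ K) (hn : ‖n‖ = 1) {m W : ℝ} {e : perp n}
    (hW0 : 0 ≤ W) (hmax : ∀ x ∈ slice n K m, ∀ y ∈ slice n K m, inner ℝ e (x - y) ≤ W)
    (hsymm : ∀ z, (∃ x ∈ K, inner ℝ n x = z) → ∃ x ∈ K, inner ℝ n x = 2 * m - z) (z : ℝ) :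
    volume ((fun r => (r, z)) ⁻¹' ((fun x : Space => (inner ℝ (e : Space) x, inner ℝ n x)) '' K)) +
    volume ((fun r => (r, 2 * m - z)) ⁻¹'
      ((fun x : Space => (inner ℝ (e : Space) x, inner ℝ n x)) '' K)) ≤ ENNReal.ofReal (2 * W) := by
  set Q := (fun x : Space => (inner ℝ (e : Space) x, inner ℝ n x)) '' K with hQ
  have hQc : IsCompact Q := hK.image (by fun_prop)
  have hQv : Convex ℝ Q := by
    have := hKv.linear_image
      ((innerₛₗ ℝ (e : Space)).prod (innerₛₗ ℝ n))
    exact this
  set I := fun z : ℝ => (fun r => (r, z)) ⁻¹' Q with hI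
  have Ic : ∀ z, IsCompact (I z) := fun z =>
    (hQc.image continuous_fst).of_isClosed_subset (hQc.isClosed.preimage (by fun_prop))
      fun r hr => ⟨(r, z), hr, rfl⟩
  have bound : ∀ z, (I z).Nonempty → volume (I z) ≤ ENNReal.ofReal (sSup (I z) - sInf (I z)) := by
    intro z hz
    rw [← Real.volume_Icc]
    exact measure_mono fun r hr => ⟨csInf_le (Ic z).bddBelow hr, le_csSup (Ic z).bddAbove hr⟩
  have mid : ∀ z r1 r2 s1 s2 : ℝ, (r1, z) ∈ Q → (r2, z) ∈ Q → (s1, 2 * m - z) ∈ Q →
      (s2, 2 * m - z) ∈ Q → (r1 - r2) + (s1 - s2) ≤ 2 * W := by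
    intro z r1 r2 s1 s2 h1 h2 h3 h4
    have half : (0:ℝ) ≤ 1/2 := by norm_num
    obtain ⟨x1, hx1, e1⟩ := h1
    obtain ⟨x2, hx2, e2⟩ := h2
    obtain ⟨x3, hx3, e3⟩ := h3
    obtain ⟨x4, hx4, e4⟩ := h4
    simp only [Prod.mk.injEq] at e1 e2 e3 e4
    obtain ⟨p, hp, hp'⟩ := slice_mk n hn (hKv hx1 hx3 half half (by norm_num))
    obtain ⟨q, hq, hq'⟩ := slice_mk n hn (hKv hx2 hx4 half half (by norm_num))
    have a1 : inner ℝ n ((1/2:ℝ) • x1 + (1/2:ℝ) • x3) = m := by
      rw [inner_add_right, real_inner_smul_right, real_inner_smul_right, e1.2, e3.2]; ring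
    have a2 : inner ℝ n ((1/2:ℝ) • x2 + (1/2:ℝ) • x4) = m := by
      rw [inner_add_right, real_inner_smul_right, real_inner_smul_right, e2.2, e4.2]; ring
    rw [a1] at hp hp'
    rw [a2] at hq hq'
    have := hmax p hp q hq
    rw [inner_sub_right, Submodule.coe_inner, Submodule.coe_inner, hp', hq'] at this
    simp only [inner_sub_right, inner_add_right, real_inner_smul_right] at this
    linarith [e1.1, e2.1, e3.1, e4.1]
  change volume (I z) + volume (I (2 * m - z)) ≤ _
  rcases (I z).eq_empty_or_nonempty with h | h <;>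
    rcases (I (2 * m - z)).eq_empty_or_nonempty with h' | h'
  · simp [h, h']
  · obtain ⟨r, x, hx, he⟩ := h'
    obtain ⟨x', hx', he'⟩ := hsymm (2 * m - z) ⟨x, hx, (Prod.ext_iff.1 he).2⟩
    rw [show 2 * m - (2 * m - z) = z by ring] at he'
    exact absurd (h.subset (show inner ℝ (e : Space) x' ∈ I z from ⟨x', hx', by simp [he']⟩)) (by simp)
  · obtain ⟨r, x, hx, he⟩ := h
    obtain ⟨x', hx', he'⟩ := hsymm z ⟨x, hx, (Prod.ext_iff.1 he).2⟩
    exact absurd (h'.subset (show inner ℝ (e : Space) x' ∈ I (2 * m - z) from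
      ⟨x', hx', by simp [he']⟩)) (by simp)
  · refine (add_le_add (bound _ h) (bound _ h')).trans ?_
    rw [← ENNReal.ofReal_add (sub_nonneg.2 (csInf_le_csSup h (Ic z).bddBelow (Ic z).bddAbove))
      (sub_nonneg.2 (csInf_le_csSup h' (Ic _).bddBelow (Ic _).bddAbove))]
    exact ENNReal.ofReal_le_ofReal (mid z _ _ _ _ ((Ic z).sSup_mem h) ((Ic z).sInf_mem h)
      ((Ic _).sSup_mem h') ((Ic _).sInf_mem h'))

/-- Cylinders whose axes are orthogonal to `n`: the slices give the half-area bound. -/
theorem coplanar_bound {ι : Type*} [Fintype ι] (hK : IsCompact K) (hKv : Convex ℝ K)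
    (hKne : K.Nonempty) (hn : ‖n‖ = 1) (u : ι → Space) (hu : ∀ i, ‖u i‖ = 1)
    (hun : ∀ i, inner ℝ (u i) n = (0:ℝ)) (B : ∀ i, Set (perp (u i)))
    (hcov : K ⊆ ⋃ i, axisCylinder (u i) (B i)) :
    ∃ u0 : Space, ‖u0‖ = 1 ∧ inner ℝ u0 n = (0:ℝ) ∧
      (volume : Measure (perp u0)) ((perp u0).orthogonalProjectionOnto '' K)
        ≤ 2 * ∑ i, (volume : Measure (perp (u i))) (B i) := by
  classical
  choose v hv hvu hvn using fun i => exists_unit_orth (u i) n
  choose ψ hψ hψe hψp using fun i =>
    plane_coords (hu i) (hv i) hn (by rw [real_inner_comm]; exact hvu i) (hun i) (hvn i)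
  let B' : ι → Set (ℝ × ℝ) := fun i => ψ i ⁻¹' toMeasurable volume (B i)
  have hB'm : ∀ i, MeasurableSet (B' i) := fun i =>
    (measurableSet_toMeasurable _ _).preimage (hψ i).measurable
  have hB'v : ∀ i, volume (B' i) = (volume : Measure (perp (u i))) (B i) := fun i => by
    rw [(hψ i).measure_preimage (measurableSet_toMeasurable _ _).nullMeasurableSet,
      measure_toMeasurable]
  -- the range of heights
  obtain ⟨x0, hx0, hx0min⟩ := hK.exists_isMinOn hKne
    (f := fun x => inner ℝ n x) (by fun_prop : Continuous fun x : Space => inner ℝ n x).continuousOn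
  obtain ⟨x1, hx1, hx1max⟩ := hK.exists_isMaxOn hKne
    (f := fun x => inner ℝ n x) (by fun_prop : Continuous fun x : Space => inner ℝ n x).continuousOn
  set z0 := inner ℝ n x0 with hz0
  set z1 := inner ℝ n x1 with hz1
  set m := (z0 + z1) / 2 with hm
  have hz01 : z0 ≤ z1 := hx1max hx0
  have half : (0:ℝ) ≤ 1/2 := by norm_num
  have hmS : (slice n K m).Nonempty := by
    obtain ⟨y, hy, -⟩ := slice_mk n hn (hKv hx0 hx1 half half (by norm_num))
    refine ⟨y, ?_⟩
    convert hy using 2
    rw [inner_add_right, real_inner_smul_right, real_inner_smul_right, hm, ← hz0, ← hz1]; ring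
  -- the smallest width of the middle slice
  set S := slice n K m with hS
  have hSc : IsCompact S := slice_compact n hK m
  let h : perp n → ℝ := fun e => sSup ((fun p : perp n × perp n => inner ℝ e (p.1 - p.2)) '' (S ×ˢ S))
  have hcont : Continuous h := (hSc.prod hSc).continuous_sSup (by fun_prop)
  have hsph : (Metric.sphere (0 : perp n) 1).Nonempty := by
    obtain ⟨w, hw, hw1, -⟩ := exists_unit_orth n n
    exact ⟨⟨w, Submodule.mem_orthogonal_singleton_iff_inner_left.2 hw1⟩, by simpa using hw⟩
  obtain ⟨e0, he0, he0min⟩ := (isCompact_sphere (0 : perp n) 1).exists_isMinOn hsph hcont.continuousOn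
  have e0n : ‖(e0 : Space)‖ = 1 := by simpa using he0
  have e0p : inner ℝ (e0 : Space) n = (0:ℝ) :=
    Submodule.mem_orthogonal_singleton_iff_inner_left.1 e0.2
  set W := h e0 with hW
  have hub : ∀ e, ∀ x ∈ S, ∀ y ∈ S, inner ℝ e (x - y) ≤ h e := fun e x hx y hy =>
    le_csSup ((hSc.prod hSc).image (by fun_prop)).bddAbove ⟨(x, y), ⟨hx, hy⟩, rfl⟩
  have hW0 : 0 ≤ W := by
    obtain ⟨y, hy⟩ := hmS
    simpa using hub e0 y hy y hy
  have hwid : WidthGE S W := by
    intro e he
    have hne : ((fun p : perp n × perp n => inner ℝ e (p.1 - p.2)) '' (S ×ˢ S)).Nonempty :=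
      (hmS.prod hmS).image _
    obtain ⟨p, hp, hp'⟩ := ((hSc.prod hSc).image (by fun_prop)).sSup_mem hne
    refine ⟨p.1, hp.1, p.2, hp.2, ?_⟩
    have h1 := he0min (show e ∈ Metric.sphere (0 : perp n) 1 by simpa using he)
    exact le_of_le_of_eq h1 hp'.symm
  let F : ℝ → ENNReal := fun z => ∑ i, volume ((fun r => (r, z)) ⁻¹' B' i)
  have hFm : Measurable F :=
    Finset.measurable_sum _ fun i _ => measurable_measure_prodMk_right (hB'm i)
  have slices : ∀ xe ∈ K, ∀ t ∈ Icc (0:ℝ) 1,
      ENNReal.ofReal (t * W) ≤ F ((1 - t) * inner ℝ n xe + t * m) := by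
    intro xe hxe t ht
    set z := (1 - t) * inner ℝ n xe + t * m with hz
    obtain ⟨p, hp, hp'⟩ := slice_mk n hn hxe
    let φ : perp n → perp n := fun y => (1 - t) • p + t • y
    have mem : ∀ y ∈ S, φ y ∈ slice n K z := by
      intro y hy
      have := hKv (show (p : Space) + (inner ℝ n xe) • n ∈ K from hp) (show (y : Space) + m • n ∈ K from hy)
        (show (0:ℝ) ≤ 1 - t by linarith [ht.2]) ht.1 (by ring)
      change ((φ y : perp n) : Space) + z • n ∈ K
      convert this using 1
      simp only [φ, Submodule.coe_add, Submodule.coe_smul, hz]; module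
    obtain ⟨y, hy⟩ := hmS
    have hwS : WidthGE (slice n K z) (t * W) := by
      intro e he
      obtain ⟨a, ha, b, hb, hab⟩ := hwid e he
      refine ⟨φ a, mem a ha, φ b, mem b hb, ?_⟩
      rw [show φ a - φ b = t • (a - b) by simp only [φ]; module, real_inner_smul_right]
      exact mul_le_mul_of_nonneg_left hab ht.1
    refine bang_outer (slice_compact n hK z) (slice_convex n hKv z) ⟨_, mem y hy⟩ hwS
      (fun i => (⟨v i, Submodule.mem_orthogonal_singleton_iff_inner_left.2 (hvn i)⟩ : perp n))
      (fun i => (fun r => (r, z)) ⁻¹' B' i) (fun i => hv i) fun q hq => ?_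
    obtain ⟨i, hi⟩ := mem_iUnion.1 (hcov hq)
    refine mem_iUnion.2 ⟨i, ?_⟩
    have hi' : (perp (u i)).orthogonalProjectionOnto ((q : Space) + z • n) ∈ B i := hi
    rw [hψp i, inner_n n hn] at hi'
    rw [inner_add_right, real_inner_smul_right, hvn i, mul_zero, add_zero] at hi'
    exact subset_toMeasurable _ _ hi'
  have lower : ENNReal.ofReal (W * (z1 - z0) / 2) ≤ ∑ i, (volume : Measure (perp (u i))) (B i) := by
    have tot : ∑ i, (volume : Measure (perp (u i))) (B i) = ∫⁻ z, F z := by
      rw [lintegral_finset_sum _ fun i _ => measurable_measure_prodMk_right (hB'm i)]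
      refine Finset.sum_congr rfl fun i _ => ?_
      rw [← hB'v i, Measure.volume_eq_prod, Measure.prod_apply_symm (hB'm i)]
    rcases hz01.eq_or_lt with h01 | h01
    · simp [← h01]
    have d0 : 0 < m - z0 := by rw [hm]; linarith
    have hne : z1 - z0 ≠ 0 := by linarith
    have hm2 : m - z0 = (z1 - z0) / 2 := by rw [hm]; ring
    rw [tot]
    calc ENNReal.ofReal (W * (z1 - z0) / 2)
        = ENNReal.ofReal (∫ z in Ioc z0 m, (z - z0) / (m - z0) * W) +
          ENNReal.ofReal (∫ z in Ioc m z1, (z1 - z) / (m - z0) * W) := by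
          rw [← intervalIntegral.integral_of_le (by linarith),
            ← intervalIntegral.integral_of_le (by linarith [hm])]
          have i1 : (∫ z in z0..m, (z - z0) / (m - z0) * W) = W * (z1 - z0) / 4 := by
            rw [intervalIntegral.integral_mul_const, intervalIntegral.integral_div,
              intervalIntegral.integral_sub intervalIntegral.intervalIntegrable_id intervalIntegrable_const,
              integral_id, intervalIntegral.integral_const, smul_eq_mul]
            rw [hm2, hm]; field_simp; ring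
          have i2 : (∫ z in m..z1, (z1 - z) / (m - z0) * W) = W * (z1 - z0) / 4 := by
            rw [intervalIntegral.integral_mul_const, intervalIntegral.integral_div,
              intervalIntegral.integral_sub intervalIntegrable_const intervalIntegral.intervalIntegrable_id,
              integral_id, intervalIntegral.integral_const, smul_eq_mul]
            rw [hm2, hm]; field_simp; ring
          rw [i1, i2, ← ENNReal.ofReal_add (by have := mul_nonneg hW0 (sub_nonneg.2 hz01); linarith)
            (by have := mul_nonneg hW0 (sub_nonneg.2 hz01); linarith)]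
          congr 1; ring
      _ ≤ (∫⁻ z in Ioc z0 m, F z) + ∫⁻ z in Ioc m z1, F z := by
          apply add_le_add
          · rw [ofReal_integral_eq_lintegral_ofReal
              ((by fun_prop : Continuous fun z => (z - z0) / (m - z0) * W).integrableOn_Ioc)]
            · refine setLIntegral_mono hFm fun z hz => ?_
              have := slices x0 hx0 ((z - z0) / (m - z0))
                ⟨div_nonneg (by linarith [hz.1]) d0.le, (div_le_one d0).2 (by linarith [hz.2])⟩
              rwa [← hz0, show (1 - (z - z0) / (m - z0)) * z0 + (z - z0) / (m - z0) * m = z by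
                field_simp; ring] at this
            · exact (ae_restrict_mem measurableSet_Ioc).mono fun z hz =>
                mul_nonneg (div_nonneg (by linarith [hz.1]) d0.le) hW0
          · rw [ofReal_integral_eq_lintegral_ofReal
              ((by fun_prop : Continuous fun z => (z1 - z) / (m - z0) * W).integrableOn_Ioc)]
            · refine setLIntegral_mono hFm fun z hz => ?_
              have := slices x1 hx1 ((z1 - z) / (m - z0))
                ⟨div_nonneg (by linarith [hz.2]) d0.le, (div_le_one d0).2 (by rw [hm]; linarith [hz.1, hm])⟩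
              rwa [← hz1, show (1 - (z1 - z) / (m - z0)) * z1 + (z1 - z) / (m - z0) * m = z by
                rw [hm2, hm]; field_simp; ring] at this
            · exact (ae_restrict_mem measurableSet_Ioc).mono fun z hz =>
                mul_nonneg (div_nonneg (by linarith [hz.2]) d0.le) hW0
      _ = ∫⁻ z in Ioc z0 z1, F z := by
          rw [← lintegral_union measurableSet_Ioc (Ioc_disjoint_Ioc_of_le le_rfl),
            Ioc_union_Ioc_eq_Ioc (by linarith) (by rw [hm]; linarith)]
      _ ≤ ∫⁻ z, F z := setLIntegral_le_lintegral _ _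
  -- the shadow along the direction that realises the small width
  obtain ⟨u0, hu0, hu0e, hu0n⟩ := exists_unit_orth (e0 : Space) n
  refine ⟨u0, hu0, hu0n, ?_⟩
  obtain ⟨ψ0, hψ0, hψ0e, hψ0p⟩ := plane_coords hu0 e0n hn hu0e hu0n e0p
  set Q := (fun x : Space => (inner ℝ (e0 : Space) x, inner ℝ n x)) '' K with hQ
  have hQc : IsCompact Q := hK.image (by fun_prop)
  have himg : (perp u0).orthogonalProjectionOnto '' K = ψ0 '' Q := by
    rw [hQ, image_image]; exact image_congr fun x _ => hψ0p x
  let L : ℝ → ENNReal := fun z => volume ((fun r => (r, z)) ⁻¹' Q)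
  have Lm : Measurable L := measurable_measure_prodMk_right hQc.measurableSet
  have hsymm : ∀ z, (∃ x ∈ K, inner ℝ n x = z) → ∃ x ∈ K, inner ℝ n x = 2 * m - z := by
    rintro z ⟨x, hx, rfl⟩
    have a1 : z0 ≤ inner ℝ n x := hx0min hx
    have a2 : inner ℝ n x ≤ z1 := hx1max hx
    rcases hz01.eq_or_lt with h01 | h01
    · exact ⟨x, hx, by rw [hm]; linarith⟩
    · set t := (z1 - inner ℝ n x) / (z1 - z0) with ht
      have t0 : 0 ≤ t := div_nonneg (by linarith) (by linarith)
      have t1 : 0 ≤ 1 - t := by rw [sub_nonneg, ht, div_le_one (by linarith)]; linarith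
      refine ⟨(1 - t) • x0 + t • x1, hKv hx0 hx1 t1 t0 (by ring), ?_⟩
      rw [inner_add_right, real_inner_smul_right, real_inner_smul_right, ← hz0, ← hz1, hm, ht]
      have : z1 - z0 ≠ 0 := by linarith
      field_simp; ring
  have zero : ∀ z, z ∉ Icc z0 z1 → L z = 0 := by
    intro z hz
    have : (fun r => (r, z)) ⁻¹' Q = ∅ := by
      ext r
      simp only [mem_preimage, hQ, mem_image, Prod.mk.injEq, mem_empty_iff_false, iff_false]
      rintro ⟨x, hx, -, rfl⟩
      exact hz ⟨hx0min hx, hx1max hx⟩
    simp [L, this]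
  have key : volume Q + volume Q ≤ ENNReal.ofReal (2 * W * (z1 - z0)) := by
    have e1 : volume Q = ∫⁻ z, L z := by
      rw [Measure.volume_eq_prod, Measure.prod_apply_symm hQc.measurableSet]
    have e2 : (∫⁻ z, L (2 * m - z)) = ∫⁻ z, L z :=
      (Measure.measurePreserving_sub_left volume (2 * m)).lintegral_comp Lm
    calc volume Q + volume Q = ∫⁻ z, (L z + L (2 * m - z)) := by
          rw [lintegral_add_left Lm, e2, e1]
      _ ≤ ∫⁻ z, (Icc z0 z1).indicator (fun _ => ENNReal.ofReal (2 * W)) z := by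
          refine lintegral_mono fun z => ?_
          by_cases hz : z ∈ Icc z0 z1
          · rw [indicator_of_mem hz]
            exact fibre_pair n hK hKv hn hW0 (fun x hx y hy => hub e0 x hx y hy) hsymm z
          · rw [indicator_of_notMem hz, zero z hz, zero (2 * m - z)]
            · simp
            · intro h2; apply hz; rw [hm] at h2; constructor <;> linarith [h2.1, h2.2]
      _ = _ := by
          rw [lintegral_indicator measurableSet_Icc, setLIntegral_const, Real.volume_Icc,
            ← ENNReal.ofReal_mul (by linarith)]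
  calc (volume : Measure (perp u0)) ((perp u0).orthogonalProjectionOnto '' K) = volume Q := by
        rw [himg, ← hψ0.measure_preimage_emb hψ0e, hψ0e.injective.preimage_image]
    _ ≤ ENNReal.ofReal (W * (z1 - z0)) := by
        by_contra hlt
        push_neg at hlt
        have : ENNReal.ofReal (2 * W * (z1 - z0)) < volume Q + volume Q := by
          rw [show 2 * W * (z1 - z0) = W * (z1 - z0) + W * (z1 - z0) by ring,
            ENNReal.ofReal_add (mul_nonneg hW0 (sub_nonneg.2 hz01)) (mul_nonneg hW0 (sub_nonneg.2 hz01))]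
          exact ENNReal.add_lt_add hlt hlt
        exact absurd key this.not_ge
    _ = 2 * ENNReal.ofReal (W * (z1 - z0) / 2) := by
        rw [← ENNReal.ofReal_ofNat 2, ← ENNReal.ofReal_mul zero_le_two]; congr 1; ring
    _ ≤ _ := by gcongr

end Vale.Agent.P243b
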