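import Mathlib
import Vale.Agent.P243b.Contact

/-!
The shadow of a symmetric body is small against its extremal inscribed ellipsoid.
-/

open Matrix Set MeasureTheory

namespace Vale.Agent.P243b

lemma frame_of_two {u p : V3} (hu : nsq u = 1) (hp : nsq p = 1) (h : u ⬝ᵥ p = 0) :
    Frame u p (u ⨯₃ p) where
  uu := hu
  pp := hp
  qq := by
    show nsq (u ⨯₃ p) = 1
    rw [gram_eq, hu, hp, h]; ring
  up := h
  uq := dot_self_cross u p
  pq := dot_cross_self u p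

/-- The area of a plane region below a concave profile. -/
lemma volume_region {A B : ℝ} (hA : 0 < A) (hB : B ≤ 2 * A) (hB0 : 0 ≤ B) :
    volume {z : ℝ × ℝ | |z.1| ≤ 1 ∧ z.2 ^ 2 ≤ A - B * z.1 ^ 2}
      ≤ ENNReal.ofReal (4 * Real.sqrt A * (1 - B / (6 * A))) := by
  have hm : MeasurableSet {z : ℝ × ℝ | |z.1| ≤ 1 ∧ z.2 ^ 2 ≤ A - B * z.1 ^ 2} :=
    ((isClosed_le (by fun_prop : Continuous fun z : ℝ × ℝ => |z.1|) continuous_const).inter
      (isClosed_le (by fun_prop : Continuous fun z : ℝ × ℝ => z.2 ^ 2)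
        (by fun_prop : Continuous fun z : ℝ × ℝ => A - B * z.1 ^ 2))).measurableSet
  let φ : ℝ → ℝ := fun t => 2 * (Real.sqrt A * (1 - B * t ^ 2 / (2 * A)))
  have hφc : Continuous φ := by fun_prop
  have hfac : ∀ t ∈ Icc (-1:ℝ) 1, 0 ≤ 1 - B * t ^ 2 / (2 * A) := by
    intro t ht
    have h2 : t ^ 2 ≤ 1 := by nlinarith [ht.1, ht.2]
    rw [sub_nonneg, div_le_one (by linarith)]
    nlinarith [mul_le_mul_of_nonneg_left h2 hB0]
  rw [Measure.volume_eq_prod, Measure.prod_apply hm]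
  calc ∫⁻ t, volume (Prod.mk t ⁻¹' {z : ℝ × ℝ | |z.1| ≤ 1 ∧ z.2 ^ 2 ≤ A - B * z.1 ^ 2})
      ≤ ∫⁻ t, (Icc (-1:ℝ) 1).indicator (fun t => ENNReal.ofReal (φ t)) t := by
        refine lintegral_mono fun t => ?_
        by_cases ht : t ∈ Icc (-1:ℝ) 1
        · rw [indicator_of_mem ht]
          set c := Real.sqrt A * (1 - B * t ^ 2 / (2 * A)) with hc
          refine (measure_mono (t := Icc (-c) c) fun σ hσ => ?_).trans ?_
          · have hc0 : 0 ≤ c := mul_nonneg (Real.sqrt_nonneg _) (hfac t ht)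
            have h2 : A - B * t ^ 2 ≤ c ^ 2 := by
              have e : c ^ 2 = A - B * t ^ 2 + (B * t ^ 2) ^ 2 / (4 * A) := by
                rw [hc, mul_pow, Real.sq_sqrt hA.le]; field_simp; ring
              rw [e]
              have : 0 ≤ (B * t ^ 2) ^ 2 / (4 * A) := by positivity
              linarith
            have h3 : σ ^ 2 ≤ c ^ 2 := hσ.2.trans h2
            exact ⟨(abs_le_of_sq_le_sq' h3 hc0).1, (abs_le_of_sq_le_sq' h3 hc0).2⟩
          · rw [Real.volume_Icc]; exact ENNReal.ofReal_le_ofReal (le_of_eq (by simp only [φ, hc]; ring))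
        · rw [indicator_of_notMem ht]
          have : Prod.mk t ⁻¹' {z : ℝ × ℝ | |z.1| ≤ 1 ∧ z.2 ^ 2 ≤ A - B * z.1 ^ 2} = ∅ :=
            eq_empty_of_forall_notMem fun σ h => ht (mem_Icc.2 (abs_le.1 h.1))
          simp [this]
    _ = _ := by
        rw [lintegral_indicator measurableSet_Icc,
          ← ofReal_integral_eq_lintegral_ofReal hφc.continuousOn.integrableOn_Icc
            (ae_restrict_of_forall_mem measurableSet_Icc fun t ht =>
              mul_nonneg (by norm_num) (mul_nonneg (Real.sqrt_nonneg _) (hfac t ht))),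
          MeasureTheory.integral_Icc_eq_integral_Ioc,
          ← intervalIntegral.integral_of_le (by norm_num : (-1:ℝ) ≤ 1)]
        congr 1
        have e : φ = fun t => 2 * Real.sqrt A - (Real.sqrt A * B / A) * t ^ 2 := by
          funext t; simp only [φ]; field_simp
        rw [e, intervalIntegral.integral_sub intervalIntegrable_const
          (Continuous.intervalIntegrable (by fun_prop) _ _)]
        simp only [intervalIntegral.integral_const, intervalIntegral.integral_const_mul, integral_pow,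
          smul_eq_mul]
        field_simp
        ring

/-- The numerical inequality for the profile. -/
lemma profile_le {f p g : ℝ} (hf : f ≤ 1) (hp0 : 0 ≤ p) (hp1 : p ≤ 1) (hsum : 1 ≤ f + p)
    (hg : g = f + p * (1 - f)) :
    4 * Real.sqrt (2 * g) * (1 - p / (12 * g)) ≤ 25 / 4 * g := by
  have hg1 : 1 - p + p ^ 2 ≤ g := by nlinarith
  have hg34 : 3 / 4 ≤ g := by nlinarith [sq_nonneg (p - 1 / 2)]
  have hgle : g ≤ 1 := by nlinarith [mul_nonneg (sub_nonneg.2 hf) (sub_nonneg.2 hp1)]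
  have hgp : p ≤ g := by nlinarith
  have hg0 : 0 < g := by linarith
  have key : 512 * (12 * g - p) ^ 2 ≤ 90000 * g ^ 3 := by
    have step : ∀ p0 g0 : ℝ, 3 / 4 ≤ g0 → g0 ≤ g → 0 ≤ p0 → p0 ≤ p →
        512 * (12 * g0 - p0) ^ 2 ≤ 90000 * g0 ^ 3 → 512 * (12 * g - p) ^ 2 ≤ 90000 * g ^ 3 := by
      intro p0 g0 h1 h2 h3 h4 h5
      have h6 : (12 * g - p) ^ 2 ≤ (12 * g - p0) ^ 2 :=
        pow_le_pow_left₀ (by linarith) (by linarith) 2
      have h7 : 512 * ((12 * g - p0) ^ 2 - (12 * g0 - p0) ^ 2) ≤ 90000 * (g ^ 3 - g0 ^ 3) := by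
        have e1 : (12 * g - p0) ^ 2 - (12 * g0 - p0) ^ 2
            = (g - g0) * (12 * (12 * g + 12 * g0 - 2 * p0)) := by ring
        have e2 : g ^ 3 - g0 ^ 3 = (g - g0) * (g ^ 2 + g * g0 + g0 ^ 2) := by ring
        rw [e1, e2, mul_left_comm, mul_left_comm (90000:ℝ)]
        refine mul_le_mul_of_nonneg_left ?_ (by linarith)
        have hq : 0 ≤ g ^ 2 + g * g0 + g0 ^ 2 := by positivity
        have hq2 : 27 / 16 ≤ g ^ 2 + g * g0 + g0 ^ 2 := by
          have := mul_le_mul (h1.trans h2) h1 (by norm_num) hg0.le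
          have := pow_le_pow_left₀ (by norm_num) (h1.trans h2) 2
          have := pow_le_pow_left₀ (by norm_num) h1 2
          linarith
        have hq3 : 12 * g + 12 * g0 - 2 * p0 ≤ 24 := by linarith
        linarith
      linarith
    rcases le_total p (1 / 5) with h | h
    · exact step 0 (21 / 25) (by norm_num) (by nlinarith) le_rfl hp0 (by norm_num)
    rcases le_total p (3 / 10) with h' | h'
    · exact step (1 / 5) (79 / 100) (by norm_num) (by nlinarith) (by norm_num) h (by norm_num)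
    rcases le_total p (7 / 20) with h'' | h''
    · exact step (3 / 10) (7725 / 10000) (by norm_num) (by nlinarith) (by norm_num) h' (by norm_num)
    rcases le_total p (2 / 5) with h''' | h'''
    · exact step (7 / 20) (19 / 25) (by norm_num) (by nlinarith) (by norm_num) h'' (by norm_num)
    exact step (2 / 5) (3 / 4) le_rfl hg34 (by norm_num) h''' (by norm_num)
  have h0 : 0 ≤ 1 - p / (12 * g) := by
    rw [sub_nonneg, div_le_one (by linarith)]; linarith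
  refine (sq_le_sq₀ (by positivity) (by positivity)).1 ?_
  rw [mul_pow, mul_pow, Real.sq_sqrt (by linarith)]
  have e : (1 - p / (12 * g)) ^ 2 = (12 * g - p) ^ 2 / (144 * g ^ 2) := by field_simp; ring
  rw [e, mul_div_assoc', div_le_iff₀ (by positivity)]
  nlinarith [mul_le_mul_of_nonneg_left key hg0.le]

variable {K : Set V3}

/-- Two contact normals which are far from parallel. -/
lemma exists_pair (E : Extremal K) : ∃ i j : E.ι, 0 < E.d i ∧ 0 < E.d j ∧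
    1 / 2 ≤ nsq (E.n i ⨯₃ E.n j) := by
  letI := E.fι
  letI := E.fκ
  by_contra hno
  push Not at hno
  have hbal : ∀ i, ∑ j, E.d j * (E.n i ⬝ᵥ E.n j) ^ 2 ≤ 1 := by
    intro i
    have h := E.balance (E.n i) (E.n i)
    have h1 : E.n i ⬝ᵥ E.n i = 1 := E.n_unit i
    rw [h1] at h
    have h2 : 0 ≤ ∑ k, E.l k * ((E.w k ⬝ᵥ E.n i) * (E.w k ⬝ᵥ E.n i)) :=
      Finset.sum_nonneg fun k _ => mul_nonneg (E.l_nonneg k) (mul_self_nonneg _)
    calc ∑ j, E.d j * (E.n i ⬝ᵥ E.n j) ^ 2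
        = ∑ j, E.d j * ((E.n j ⬝ᵥ E.n i) * (E.n j ⬝ᵥ E.n i)) :=
          Finset.sum_congr rfl fun j _ => by rw [dotProduct_comm (E.n i), sq]
      _ ≤ 1 := by linarith
  have hlow : 2 ≤ ∑ i, E.d i * ∑ j, E.d j * nsq (E.n i ⨯₃ E.n j) := by
    calc (2:ℝ) = ∑ i, E.d i * 1 := by simp [E.d_sum]
      _ ≤ _ := Finset.sum_le_sum fun i _ => by
        refine mul_le_mul_of_nonneg_left ?_ (E.d_nonneg i)
        have e : ∑ j, E.d j * nsq (E.n i ⨯₃ E.n j) = 2 - ∑ j, E.d j * (E.n i ⬝ᵥ E.n j) ^ 2 := by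
          simp only [gram_eq, E.n_unit, one_mul, mul_sub, Finset.sum_sub_distrib, mul_one, E.d_sum]
        linarith [hbal i]
  obtain ⟨i0, -, hi0⟩ : ∃ i ∈ Finset.univ, E.d i ≠ 0 :=
    Finset.exists_ne_zero_of_sum_ne_zero (by rw [E.d_sum]; norm_num)
  have hlt : ∑ i, E.d i * ∑ j, E.d j * nsq (E.n i ⨯₃ E.n j) < ∑ i, E.d i * 1 := by
    refine Finset.sum_lt_sum (fun i _ => ?_) ⟨i0, Finset.mem_univ _, ?_⟩
    · rcases eq_or_lt_of_le (E.d_nonneg i) with h | h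
      · simp [← h]
      refine mul_le_mul_of_nonneg_left ?_ h.le
      calc _ ≤ ∑ j, E.d j * (1 / 2) := Finset.sum_le_sum fun j _ => by
            rcases eq_or_lt_of_le (E.d_nonneg j) with h' | h'
            · simp [← h']
            exact mul_le_mul_of_nonneg_left (hno i j h h').le h'.le
        _ = 1 := by rw [← Finset.sum_mul, E.d_sum]; norm_num
    · have h0 : 0 < E.d i0 := lt_of_le_of_ne (E.d_nonneg i0) (Ne.symm hi0)
      refine mul_lt_mul_of_pos_left ?_ h0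
      calc _ < ∑ j, E.d j * (1 / 2) := by
            refine Finset.sum_lt_sum (fun j _ => ?_) ⟨i0, Finset.mem_univ _, ?_⟩
            · rcases eq_or_lt_of_le (E.d_nonneg j) with h' | h'
              · simp [← h']
              exact mul_le_mul_of_nonneg_left (hno i0 j h0 h').le h'.le
            · exact mul_lt_mul_of_pos_left (hno i0 i0 h0 h0) h0
        _ = 1 := by rw [← Finset.sum_mul, E.d_sum]; norm_num
  simp [E.d_sum] at hlt
  linarith

/-- Lowest singular directions. -/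
def IsLow (E : Extremal K) (v : V3) : Prop :=
  E.M.adjugate *ᵥ (E.M.adjugateᵀ *ᵥ v) = E.F ^ 2 • v

lemma IsLow.comb {E : Extremal K} {v w : V3} (hv : IsLow E v) (hw : IsLow E w) (a b : ℝ) :
    IsLow E (a • v + b • w) := by
  unfold IsLow at *
  simp only [mulVec_add, mulVec_smul, hv, hw, smul_add, smul_smul, mul_comm]

/-- The points seen by the contact normals. -/
def InSlabs (E : Extremal K) (y : V3) : Prop := ∀ i, |E.n i ⬝ᵥ y| ≤ 1

lemma dot_expand {u p q : V3} (h : Frame u p q) (x y : V3) : x ⬝ᵥ y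
    = (x ⬝ᵥ u) * (y ⬝ᵥ u) + (x ⬝ᵥ p) * (y ⬝ᵥ p) + (x ⬝ᵥ q) * (y ⬝ᵥ q) := by
  conv_lhs => rw [h.expand x]
  simp only [add_dotProduct, smul_dotProduct, smul_eq_mul, dotProduct_comm u y, dotProduct_comm p y,
    dotProduct_comm q y]

/-- A contact normal with a large horizontal part. -/
lemma select_index {ι : Type*} [Fintype ι] (d f q : ι → ℝ) {D : ℝ} (hD : 0 < D)
    (hd : ∀ i, 0 ≤ d i) (hf : ∀ i, 0 ≤ f i) (hqf : ∀ i, D * f i ≤ q i) (hd2 : ∑ i, d i = 2)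
    (hfsum : ∑ i, d i * f i = 1) (hqsum : ∑ i, d i * q i = 2 * D) :
    ∃ i, 0 < f i ∧ q i ≤ f i * (D + q i) := by
  by_contra hno
  push Not at hno
  obtain ⟨i0, -, hi0⟩ : ∃ i ∈ Finset.univ, d i * f i ≠ 0 :=
    Finset.exists_ne_zero_of_sum_ne_zero (by rw [hfsum]; norm_num)
  have hb : ∀ i, 0 < f i → f i * (4 * D) < D + q i := by
    intro i hfi
    have h2 : 0 < D + q i := by nlinarith [hqf i, mul_pos hD hfi]
    refine lt_of_mul_lt_mul_right ?_ h2.le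
    calc f i * (4 * D) * (D + q i) = 4 * D * (f i * (D + q i)) := by ring
      _ < 4 * D * q i := mul_lt_mul_of_pos_left (hno i hfi) (by linarith)
      _ ≤ (D + q i) * (D + q i) := by nlinarith [sq_nonneg (D - q i)]
  have h : ∑ i, d i * f i * (4 * D) < ∑ i, d i * (D + q i) := by
    refine Finset.sum_lt_sum (fun i _ => ?_) ⟨i0, Finset.mem_univ _, ?_⟩
    · rw [mul_assoc]
      refine mul_le_mul_of_nonneg_left ?_ (hd i)
      rcases eq_or_lt_of_le (hf i) with hh | hh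
      · rw [← hh, zero_mul]; nlinarith [hqf i]
      · exact (hb i hh).le
    · rw [mul_assoc]
      obtain ⟨h1, h2⟩ := mul_ne_zero_iff.1 hi0
      exact mul_lt_mul_of_pos_left (hb _ (lt_of_le_of_ne (hf _) (Ne.symm h2)))
        (lt_of_le_of_ne (hd _) (Ne.symm h1))
  simp only [← Finset.sum_mul, hfsum, mul_add, Finset.sum_add_distrib, hqsum, hd2] at h
  linarith

/-- The image of a slab point. -/
lemma mem_profile {F0 p g H0 s Z R : ℝ} (hF : 0 ≤ F0) (hg0 : 0 ≤ g) (hH : H0 ^ 2 = 1 - F0)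
    (hg : g = F0 + p * (1 - F0)) (hs : p * s ^ 2 ≤ F0 * R) (hR : Z ^ 2 + R ≤ 2) :
    (p * H0 * s - F0 * Z) ^ 2 ≤ 2 * F0 * g - F0 * p * (s + H0 * Z) ^ 2 := by
  have h6 : g * (p * s ^ 2 + F0 * Z ^ 2)
      = F0 * p * (s + H0 * Z) ^ 2 + (p * H0 * s - F0 * Z) ^ 2 := by
    rw [hg, ← hH]; ring
  have h7 : p * s ^ 2 + F0 * Z ^ 2 ≤ F0 * 2 := by
    have := mul_le_mul_of_nonneg_left hR hF
    linarith
  have := mul_le_mul_of_nonneg_left h7 hg0
  linarith

/-- The gram determinant of the two coordinates. -/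
lemma gram_value {a b F0 p H0 g : ℝ} (hF : F0 = a * a + b * b) (hH : H0 ^ 2 = 1 - F0)
    (hg : g = F0 + p * (1 - F0)) :
    ((-F0) * (-F0) + p * H0 * a * (p * H0 * a) + p * H0 * b * (p * H0 * b))
      - (H0 * (-F0) + a * (p * H0 * a) + b * (p * H0 * b)) ^ 2 = F0 * g ^ 2 := by
  subst hg
  linear_combination (-(p ^ 2 * H0 ^ 2) + p * H0 ^ 2 * (p * (a * a + b * b) + p * F0 - 2 * F0)) * hF
    + (p ^ 2 * F0 - F0 ^ 2 * (p - 1) ^ 2) * hH

/-- The coordinates attached to one contact normal. -/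
lemma normal_region {z e1 e2 n : V3} (hfr : Frame z e1 e2) (hn : nsq n = 1) {P11 P12 P22 : ℝ}
    {a b : ℝ} (ha : n ⬝ᵥ e1 = a) (hb : n ⬝ᵥ e2 = b) (hif : 0 < a * a + b * b)
    (hD2 : 0 < P11 * P22 - P12 ^ 2)
    (hqf : (P11 * P22 - P12 ^ 2) * (a * a + b * b)
      ≤ P22 * (a * a) - 2 * P12 * (a * b) + P11 * (b * b))
    (hsel : P22 * (a * a) - 2 * P12 * (a * b) + P11 * (b * b) ≤ (a * a + b * b) *
      (P11 * P22 - P12 ^ 2 + (P22 * (a * a) - 2 * P12 * (a * b) + P11 * (b * b)))) :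
    ∃ (c : ℝ) (v b0 : V3) (S : Set (ℝ × ℝ)), v = c • ((-b) • e1 + a • e2) ∧ nsq v = 1 ∧
      n ⬝ᵥ v = 0 ∧ b0 ⬝ᵥ v = 0 ∧ 0 < nsq (n ⨯₃ b0) ∧
      (∀ y : V3, |n ⬝ᵥ y| ≤ 1 → (y ⬝ᵥ z) ^ 2 + (P11 * (y ⬝ᵥ e1) ^ 2
        + 2 * P12 * ((y ⬝ᵥ e1) * (y ⬝ᵥ e2)) + P22 * (y ⬝ᵥ e2) ^ 2) ≤ 2 → (n ⬝ᵥ y, b0 ⬝ᵥ y) ∈ S) ∧
      volume S ≤ ENNReal.ofReal (25 / 4 * Real.sqrt (nsq (n ⨯₃ b0))) := by
  have hexp := dot_expand hfr
  set F0 := a * a + b * b with hF0
  set D2 := P11 * P22 - P12 ^ 2 with hD2'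
  set qi := P22 * (a * a) - 2 * P12 * (a * b) + P11 * (b * b) with hqi
  have hqpos : 0 < qi := lt_of_lt_of_le (mul_pos hD2 hif) hqf
  set H0 := n ⬝ᵥ z with hH0
  have hHH : H0 ^ 2 = 1 - F0 := by
    have h1 : n ⬝ᵥ n = 1 := hn
    rw [hexp, ha, hb] at h1
    rw [sq]; linarith
  set p := F0 * D2 / qi with hp
  have hp0 : 0 < p := div_pos (mul_pos hif hD2) hqpos
  have hp1 : p ≤ 1 := (div_le_one hqpos).2 (by linarith)
  have hsum : 1 ≤ F0 + p := by
    rw [hp, ← sub_nonneg]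
    have : F0 + F0 * D2 / qi - 1 = (F0 * (D2 + qi) - qi) / qi := by field_simp; ring
    rw [this]; exact div_nonneg (sub_nonneg.2 hsel) hqpos.le
  have hF1 : F0 ≤ 1 := by linarith [sq_nonneg H0]
  set g := F0 + p * (1 - F0) with hg
  have hgp : p ≤ g := by
    have : 0 ≤ F0 * (1 - p) := mul_nonneg hif.le (by linarith)
    rw [hg]; linarith
  have hg0 : 0 < g := hp0.trans_le hgp
  set bb := (p * H0) • (a • e1 + b • e2) - F0 • z with hbb
  have hv0 : nsq ((-b) • e1 + a • e2) = F0 := by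
    simp only [nsq_add, nsq_smul, dotProduct_smul, smul_dotProduct, hfr.pq]
    simp only [nsq, hfr.pp, hfr.qq, smul_eq_mul, hF0]; ring
  have hne : (-b) • e1 + a • e2 ≠ 0 := fun h0 => by
    rw [h0] at hv0; simp [nsq] at hv0; linarith
  obtain ⟨c, -, hc⟩ := exists_normalize hne
  have hbz : bb ⬝ᵥ z = -F0 := by
    simp only [hbb, sub_dotProduct, smul_dotProduct, add_dotProduct, smul_eq_mul, hfr.uu,
      dotProduct_comm e1 z, dotProduct_comm e2 z, hfr.up, hfr.uq]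
    ring
  have hb1 : bb ⬝ᵥ e1 = p * H0 * a := by
    simp only [hbb, sub_dotProduct, smul_dotProduct, add_dotProduct, smul_eq_mul, hfr.pp,
      dotProduct_comm e2 e1, hfr.pq, hfr.up]
    ring
  have hb2 : bb ⬝ᵥ e2 = p * H0 * b := by
    simp only [hbb, sub_dotProduct, smul_dotProduct, add_dotProduct, smul_eq_mul, hfr.qq,
      hfr.pq, hfr.uq]
    ring
  have hgram : nsq (n ⨯₃ bb) = F0 * g ^ 2 := by
    rw [gram_eq, hn, one_mul, hexp n bb, nsq, hexp bb bb, hbz, hb1, hb2, ha, hb, ← hH0]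
    exact gram_value hF0 hHH hg
  refine ⟨c, c • ((-b) • e1 + a • e2), bb,
    {w : ℝ × ℝ | |w.1| ≤ 1 ∧ w.2 ^ 2 ≤ 2 * F0 * g - F0 * p * w.1 ^ 2}, rfl, hc, ?_, ?_, ?_, ?_, ?_⟩
  · simp only [dotProduct_smul, dotProduct_add, smul_eq_mul, ha, hb]; ring
  · simp only [dotProduct_smul, dotProduct_add, smul_eq_mul, hb1, hb2]; ring
  · rw [hgram]; positivity
  · intro y hy h3
    refine ⟨hy, ?_⟩
    set s := a * (y ⬝ᵥ e1) + b * (y ⬝ᵥ e2) with hs
    have h1 : n ⬝ᵥ y = s + H0 * (y ⬝ᵥ z) := by rw [hexp, ha, hb, hs, hH0]; ring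
    have h2 : bb ⬝ᵥ y = p * H0 * s - F0 * (y ⬝ᵥ z) := by
      rw [hexp, hbz, hb1, hb2, hs]; ring
    have h5 : p * s ^ 2 ≤ F0 * (P11 * (y ⬝ᵥ e1) ^ 2
        + 2 * P12 * ((y ⬝ᵥ e1) * (y ⬝ᵥ e2)) + P22 * (y ⬝ᵥ e2) ^ 2) := by
      rw [hp, div_mul_eq_mul_div, div_le_iff₀ hqpos, mul_assoc, mul_assoc F0]
      refine mul_le_mul_of_nonneg_left ?_ hif.le
      rw [← sub_nonneg]
      have : (P11 * (y ⬝ᵥ e1) ^ 2 + 2 * P12 * ((y ⬝ᵥ e1) * (y ⬝ᵥ e2)) + P22 * (y ⬝ᵥ e2) ^ 2) * qi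
            - D2 * s ^ 2
          = ((P11 * (y ⬝ᵥ e1) + P12 * (y ⬝ᵥ e2)) * b
              - (P12 * (y ⬝ᵥ e1) + P22 * (y ⬝ᵥ e2)) * a) ^ 2 := by
        rw [hqi, hs, hD2']; ring
      rw [this]; exact sq_nonneg _
    show (bb ⬝ᵥ y) ^ 2 ≤ 2 * F0 * g - F0 * p * (n ⬝ᵥ y) ^ 2
    rw [h1, h2]
    exact mem_profile hif.le hg0.le hHH hg h5 h3
  · refine (volume_region (by positivity) ?_ (by positivity)).trans (ENNReal.ofReal_le_ofReal ?_)
    · have := mul_le_mul_of_nonneg_left hgp hif.le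
      linarith [mul_pos hif hg0]
    rw [hgram, Real.sqrt_mul hif.le, Real.sqrt_sq hg0.le,
      show 2 * F0 * g = F0 * (2 * g) by ring, Real.sqrt_mul hif.le]
    have e : F0 * p / (6 * (F0 * (2 * g))) = p / (12 * g) := by field_simp; ring
    rw [e]
    have := mul_le_mul_of_nonneg_left (profile_le hF1 hp0.le hp1 hsum hg) (Real.sqrt_nonneg F0)
    linarith

/-- The case of a lowest plane. -/
lemma plane_region (E : Extremal K) {z e1 e2 : V3} (hfr : Frame z e1 e2) (hlow1 : IsLow E e1)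
    (hlow2 : IsLow E e2) (hwz : ∀ k, E.w k ⬝ᵥ z = 0)
    (hkill : ∀ v, nsq v = 1 → IsLow E v →
      letI := E.fι; ∑ i, E.d i * (E.n i ⬝ᵥ v) ^ 2 ≠ 0) :
    ∃ (v a b : V3) (S : Set (ℝ × ℝ)),
    nsq v = 1 ∧ IsLow E v ∧ a ⬝ᵥ v = 0 ∧ b ⬝ᵥ v = 0 ∧ 0 < nsq (a ⨯₃ b) ∧
    (∀ y, InSlabs E y → (a ⬝ᵥ y, b ⬝ᵥ y) ∈ S) ∧
    volume S ≤ ENNReal.ofReal (25 / 4 * Real.sqrt (nsq (a ⨯₃ b))) := by
  letI := E.fι
  letI := E.fκ
  have hexp : ∀ x y : V3, x ⬝ᵥ y
      = (x ⬝ᵥ z) * (y ⬝ᵥ z) + (x ⬝ᵥ e1) * (y ⬝ᵥ e1) + (x ⬝ᵥ e2) * (y ⬝ᵥ e2) := fun x y =>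
    dot_expand hfr x y
  have pos : ∀ s t : ℝ, s ≠ 0 ∨ t ≠ 0 → 0 < ∑ i, E.d i * (E.n i ⬝ᵥ (s • e1 + t • e2)) ^ 2 := by
    intro s t hst
    have hn : nsq (s • e1 + t • e2) = s ^ 2 + t ^ 2 := by
      simp only [nsq_add, nsq_smul, dotProduct_smul, smul_dotProduct, hfr.pq]
      simp only [nsq, hfr.pp, hfr.qq, smul_eq_mul]; ring
    have hne : s • e1 + t • e2 ≠ 0 := by
      intro h; rw [h] at hn
      simp [nsq] at hn
      rcases hst with h' | h' <;> nlinarith [sq_pos_of_ne_zero h', sq_nonneg s, sq_nonneg t]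
    obtain ⟨c, hc, h1⟩ := exists_normalize hne
    refine lt_of_le_of_ne (Finset.sum_nonneg fun i _ => mul_nonneg (E.d_nonneg i) (sq_nonneg _))
      fun h0 => hkill _ h1 ?_ ?_
    · rw [smul_add, smul_smul, smul_smul]; exact hlow1.comb hlow2 _ _
    · have : ∀ i, E.d i * (E.n i ⬝ᵥ c • (s • e1 + t • e2)) ^ 2
          = c ^ 2 * (E.d i * (E.n i ⬝ᵥ (s • e1 + t • e2)) ^ 2) := fun i => by
        rw [dotProduct_smul, smul_eq_mul]; ring
      simp only [this, ← Finset.mul_sum, ← h0, mul_zero]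
  -- the plane form
  let a : E.ι → ℝ := fun i => E.n i ⬝ᵥ e1
  let b : E.ι → ℝ := fun i => E.n i ⬝ᵥ e2
  let h : E.ι → ℝ := fun i => E.n i ⬝ᵥ z
  let f : E.ι → ℝ := fun i => a i * a i + b i * b i
  set P11 := ∑ i, E.d i * (a i * a i) with hP11
  set P12 := ∑ i, E.d i * (a i * b i) with hP12
  set P22 := ∑ i, E.d i * (b i * b i) with hP22
  have bzz : ∑ i, E.d i * (h i * h i) = 1 := by
    rw [E.balance z z]
    simp [hwz, hfr.uu]
  have bz1 : ∑ i, E.d i * (h i * a i) = 0 := by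
    rw [E.balance z e1]
    simp [hwz, hfr.up]
  have bz2 : ∑ i, E.d i * (h i * b i) = 0 := by
    rw [E.balance z e2]
    simp [hwz, hfr.uq]
  have hunit : ∀ i, h i * h i + f i = 1 := by
    intro i
    have h1 : E.n i ⬝ᵥ E.n i = 1 := E.n_unit i
    rw [hexp] at h1
    simp only [h, f, a, b]; linarith
  have hfsum : ∑ i, E.d i * f i = 1 := by
    have : ∑ i, E.d i * (h i * h i + f i) = 2 := by simp only [hunit, mul_one, E.d_sum]
    simp only [mul_add, Finset.sum_add_distrib, bzz] at this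
    linarith
  have htr : P11 + P22 = 1 := by
    simpa [hP11, hP22, f, mul_add, Finset.sum_add_distrib] using hfsum
  have hform : ∀ s t : ℝ, ∑ i, E.d i * (s * a i + t * b i) ^ 2
      = P11 * s ^ 2 + 2 * P12 * (s * t) + P22 * t ^ 2 := by
    intro s t
    rw [hP11, hP12, hP22]
    simp only [Finset.sum_mul, Finset.mul_sum, ← Finset.sum_add_distrib]
    exact Finset.sum_congr rfl fun i _ => by ring
  have hposf : ∀ s t : ℝ, s ≠ 0 ∨ t ≠ 0 → 0 < P11 * s ^ 2 + 2 * P12 * (s * t) + P22 * t ^ 2 := by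
    intro s t hst
    have := pos s t hst
    simp only [dotProduct_add, dotProduct_smul, smul_eq_mul] at this
    rwa [← hform]
  have hP22pos : 0 < P22 := by simpa using hposf 0 1 (Or.inr one_ne_zero)
  set D2 := P11 * P22 - P12 ^ 2 with hD2
  have hD2pos : 0 < D2 := by
    have h1 := hposf P22 (-P12) (Or.inl hP22pos.ne')
    exact pos_of_mul_pos_right (show 0 < P22 * D2 by rw [hD2]; linarith) hP22pos.le
  let q : E.ι → ℝ := fun i => P22 * (a i * a i) - 2 * P12 * (a i * b i) + P11 * (b i * b i)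
  have hqsum : ∑ i, E.d i * q i = 2 * D2 := by
    have : ∀ i, E.d i * q i = P22 * (E.d i * (a i * a i)) - 2 * P12 * (E.d i * (a i * b i))
        + P11 * (E.d i * (b i * b i)) := fun i => by simp only [q]; ring
    simp only [this, Finset.sum_add_distrib, Finset.sum_sub_distrib, ← Finset.mul_sum]
    rw [← hP11, ← hP12, ← hP22, hD2]; ring
  have hqf : ∀ i, D2 * f i ≤ q i := by
    intro i
    have e : q i - D2 * f i = (P22 * a i - P12 * b i) ^ 2 + (P12 * a i - P11 * b i) ^ 2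
        + (1 - P11 - P22) * (P22 * (a i * a i) - 2 * P12 * (a i * b i) + P11 * (b i * b i)) := by
      simp only [q, f, hD2]; ring
    rw [show 1 - P11 - P22 = 0 by linarith, zero_mul, add_zero] at e
    nlinarith [sq_nonneg (P22 * a i - P12 * b i), sq_nonneg (P12 * a i - P11 * b i)]
  obtain ⟨i, hif, hsel⟩ := select_index E.d f q hD2pos E.d_nonneg
    (fun i => add_nonneg (mul_self_nonneg _) (mul_self_nonneg _)) hqf E.d_sum hfsum hqsum
  obtain ⟨c, v, bb, S, hv, hv1, hnv, hbv, hg, hS, hvol⟩ :=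
    normal_region hfr (E.n_unit i) (a := a i) (b := b i) rfl rfl hif hD2pos (hqf i) hsel
  refine ⟨v, E.n i, bb, S, hv1, ?_, hnv, hbv, hg, fun y hy => hS y (hy i) ?_, hvol⟩
  · rw [hv, smul_add, smul_smul, smul_smul]; exact hlow1.comb hlow2 _ _
  · set Z := y ⬝ᵥ z
    set Y1 := y ⬝ᵥ e1
    set Y2 := y ⬝ᵥ e2
    have e : ∀ j, E.d j * (E.n j ⬝ᵥ y) ^ 2 = Z ^ 2 * (E.d j * (h j * h j))
        + 2 * Z * Y1 * (E.d j * (h j * a j)) + 2 * Z * Y2 * (E.d j * (h j * b j))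
        + E.d j * (Y1 * a j + Y2 * b j) ^ 2 := fun j => by
      rw [hexp]; simp only [h, a, b]; ring
    have h4 : ∑ j, E.d j * (E.n j ⬝ᵥ y) ^ 2 ≤ ∑ j, E.d j * 1 :=
      Finset.sum_le_sum fun j _ => mul_le_mul_of_nonneg_left
        ((sq_le_one_iff_abs_le_one _).2 (hy j)) (E.d_nonneg j)
    simp only [e, Finset.sum_add_distrib, ← Finset.mul_sum, bzz, bz1, bz2, hform, mul_one,
      E.d_sum, mul_zero, add_zero] at h4
    linarith

/-- A small region in a lowest plane containing the projection of the slab body. -/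
lemma exists_region (E : Extremal K) : ∃ (v a b : V3) (S : Set (ℝ × ℝ)),
    nsq v = 1 ∧ IsLow E v ∧ a ⬝ᵥ v = 0 ∧ b ⬝ᵥ v = 0 ∧ 0 < nsq (a ⨯₃ b) ∧
    (∀ y, InSlabs E y → (a ⬝ᵥ y, b ⬝ᵥ y) ∈ S) ∧
    volume S ≤ ENNReal.ofReal (25 / 4 * Real.sqrt (nsq (a ⨯₃ b))) := by
  letI := E.fι
  letI := E.fκ
  -- two slabs suffice when their common axis is low
  have pairs : ∀ (i j : E.ι) (v : V3), 1 / 2 ≤ nsq (E.n i ⨯₃ E.n j) → nsq v = 1 → IsLow E v →
      E.n i ⬝ᵥ v = 0 → E.n j ⬝ᵥ v = 0 → ∃ (v a b : V3) (S : Set (ℝ × ℝ)),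
      nsq v = 1 ∧ IsLow E v ∧ a ⬝ᵥ v = 0 ∧ b ⬝ᵥ v = 0 ∧ 0 < nsq (a ⨯₃ b) ∧
      (∀ y, InSlabs E y → (a ⬝ᵥ y, b ⬝ᵥ y) ∈ S) ∧
      volume S ≤ ENNReal.ofReal (25 / 4 * Real.sqrt (nsq (a ⨯₃ b))) := by
    intro i j v hg hv hlow hi hj
    refine ⟨v, E.n i, E.n j, Icc (-1) 1 ×ˢ Icc (-1) 1, hv, hlow, hi, hj, by linarith,
      fun y hy => ⟨mem_Icc.2 (abs_le.1 (hy i)), mem_Icc.2 (abs_le.1 (hy j))⟩, ?_⟩
    rw [Measure.volume_eq_prod, Measure.prod_prod, Real.volume_Icc,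
      ← ENNReal.ofReal_mul (by norm_num)]
    refine ENNReal.ofReal_le_ofReal ?_
    have : (7:ℝ) / 10 ≤ Real.sqrt (nsq (E.n i ⨯₃ E.n j)) := Real.le_sqrt_of_sq_le (by linarith)
    linarith
  obtain ⟨i1, j1, hi1, hj1, hg1⟩ := exists_pair E
  by_cases hkill : ∃ v, nsq v = 1 ∧ IsLow E v ∧ ∑ i, E.d i * (E.n i ⬝ᵥ v) ^ 2 = 0
  · obtain ⟨v, hv, hlow, hs⟩ := hkill
    have h0 : ∀ i, 0 < E.d i → E.n i ⬝ᵥ v = 0 := fun i hi => by
      have := (Finset.sum_eq_zero_iff_of_nonneg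
        (fun k _ => mul_nonneg (E.d_nonneg k) (sq_nonneg _))).1 hs i (Finset.mem_univ i)
      rcases mul_eq_zero.1 this with h | h
      · linarith
      · exact pow_eq_zero_iff two_ne_zero |>.1 h
    exact pairs i1 j1 v hg1 hv hlow (h0 _ hi1) (h0 _ hj1)
  by_cases hall : ∀ x, IsLow E x
  · have hne : E.n i1 ⨯₃ E.n j1 ≠ 0 := fun h => by rw [h] at hg1; simp [nsq] at hg1; linarith
    obtain ⟨c, -, hc⟩ := exists_normalize hne
    refine pairs i1 j1 _ hg1 hc (hall _) ?_ ?_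
    · rw [dotProduct_smul, dot_self_cross]; simp
    · rw [dotProduct_smul, dot_cross_self]; simp
  push Not at hkill hall
  obtain ⟨x0, hx0⟩ := hall
  set G := E.M.adjugate with hG
  set z0 := G *ᵥ (Gᵀ *ᵥ x0) - E.F ^ 2 • x0 with hz0
  obtain ⟨cz, -, hz⟩ := exists_normalize (x := z0) (fun h => hx0 (sub_eq_zero.1 h))
  set z := cz • z0 with hzdef
  have hzlow : ∀ v, IsLow E v → v ⬝ᵥ z = 0 := by
    intro v hv
    have e : v ⬝ᵥ (G *ᵥ (Gᵀ *ᵥ x0)) = (G *ᵥ (Gᵀ *ᵥ v)) ⬝ᵥ x0 := by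
      rw [dotProduct_mulVec, ← mulVec_transpose, dotProduct_mulVec, vecMul_transpose]
    rw [hzdef, dotProduct_smul, hz0, dotProduct_sub, e, hv, dotProduct_smul, smul_dotProduct, sub_self,
      smul_zero]
  obtain ⟨k0, -, hk0⟩ : ∃ k ∈ Finset.univ, E.l k ≠ 0 :=
    Finset.exists_ne_zero_of_sum_ne_zero (by rw [E.l_sum]; norm_num)
  set e1 := E.w k0 with he1
  have hwz : ∀ k, E.w k ⬝ᵥ z = 0 := fun k => hzlow _ (E.w_low k)
  have hfr := frame_of_two hz (E.w_unit k0) (by rw [dotProduct_comm]; exact hwz k0)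
  set e2 := z ⨯₃ e1 with he2
  have hexp := dot_expand hfr
  have hlow1 : IsLow E e1 := E.w_low k0
  have hlow2 : IsLow E e2 := by
    by_contra hno
    have hw0 : ∀ k, E.w k ⬝ᵥ e2 = 0 := by
      intro k
      by_contra hne
      refine hno ?_
      have e : e2 = (E.w k ⬝ᵥ e2)⁻¹ • E.w k + (-(E.w k ⬝ᵥ e2)⁻¹ * (E.w k ⬝ᵥ e1)) • e1 := by
        have hx := hfr.expand (E.w k)
        rw [hwz k, zero_smul, zero_add] at hx
        have hy : (E.w k ⬝ᵥ e2) • e2 = E.w k - (E.w k ⬝ᵥ e1) • e1 := eq_sub_of_add_eq' hx.symm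
        calc e2 = (E.w k ⬝ᵥ e2)⁻¹ • ((E.w k ⬝ᵥ e2) • e2) := by
              rw [smul_smul, inv_mul_cancel₀ hne, one_smul]
          _ = _ := by rw [hy]; module
      rw [e]; exact IsLow.comb (E.w_low k) hlow1 _ _
    have h1 := E.balance e1 e1
    have h2 : ∀ k, (E.w k ⬝ᵥ e1) * (E.w k ⬝ᵥ e1) = 1 := fun k => by
      have := hexp (E.w k) (E.w k)
      rw [hwz k, hw0 k] at this
      have h3 : E.w k ⬝ᵥ E.w k = 1 := E.w_unit k
      linarith
    simp only [h2, mul_one, E.l_sum] at h1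
    rw [hfr.pp, sub_self] at h1
    exact hkill e1 hfr.pp hlow1 (by simpa [sq] using h1)
  exact plane_region E hfr hlow1 hlow2 hwz hkill

/-- Some projection of the body has area at most a fixed multiple of the least shadow of the
ellipsoid. -/
theorem exists_small_shadow (E : Extremal K) : ∃ u : V3, nsq u = 1 ∧ ∀ p q, Frame u p q →
    volume ((fun x : V3 => (x ⬝ᵥ p, x ⬝ᵥ q)) '' K) ≤ ENNReal.ofReal (25 / 4 * E.F) := by
  obtain ⟨v, a0, b0, S, hv, hlow, hav, hbv, hgram, hS, hvol⟩ := exists_region E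
  have hvl : E.M.adjugate *ᵥ (E.M.adjugateᵀ *ᵥ v) = E.F ^ 2 • v := hlow
  set G := E.M.adjugate with hG
  set D := E.M.det with hD
  have hF := E.F_pos
  have hGv : nsq (Gᵀ *ᵥ v) = E.F ^ 2 := by
    rw [nsq, dotProduct_mulVec, vecMul_transpose, hvl, smul_dotProduct, smul_eq_mul]
    rw [nsq] at hv; rw [hv, mul_one]
  set u := E.F⁻¹ • (Gᵀ *ᵥ v) with hu
  have hu1 : nsq u = 1 := by rw [hu, nsq_smul, hGv]; field_simp
  refine ⟨u, hu1, fun p q hfr => ?_⟩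
  set a := a0 ᵥ* G with ha
  set b := b0 ᵥ* G with hb
  have hau : ∀ x : V3, x ⬝ᵥ v = 0 → (x ᵥ* G) ⬝ᵥ u = 0 := by
    intro x hx
    rw [← dotProduct_mulVec, hu, mulVec_smul, hvl, dotProduct_smul, dotProduct_smul, hx]
    simp
  -- the map between the two planes
  let L : ℝ × ℝ →ₗ[ℝ] ℝ × ℝ :=
    { toFun := fun z => (((a ⬝ᵥ p) * z.1 + (a ⬝ᵥ q) * z.2) / D, ((b ⬝ᵥ p) * z.1 + (b ⬝ᵥ q) * z.2) / D)
      map_add' := fun z z' => by ext <;> simp <;> ring
      map_smul' := fun c z => by ext <;> simp <;> ring }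
  have hdetL : LinearMap.det L = ((a ⬝ᵥ p) * (b ⬝ᵥ q) - (a ⬝ᵥ q) * (b ⬝ᵥ p)) / D ^ 2 := by
    rw [← LinearMap.det_toMatrix (Module.Basis.finTwoProd ℝ), Matrix.det_fin_two]
    simp [LinearMap.toMatrix_apply, L]
    field_simp
  have hMv : nsq (E.M *ᵥ v) = D ^ 2 / E.F ^ 2 := by
    have h1 : E.F ^ 2 • (E.M *ᵥ v) = D • (Gᵀ *ᵥ v) := by
      rw [← mulVec_smul, ← hvl, mulVec_mulVec, hG, mul_adjugate, smul_mulVec, one_mulVec]
    have h2 := congrArg nsq h1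
    rw [nsq_smul, nsq_smul, hGv] at h2
    rw [eq_div_iff (by positivity)]
    refine mul_left_cancel₀ (show E.F ^ 2 ≠ 0 by positivity) ?_
    linarith
  have hdet2 : LinearMap.det L ^ 2 = nsq (a0 ⨯₃ b0) / E.F ^ 2 := by
    have hcr := cross_of_orth hv hav hbv
    have hc2 : nsq (a0 ⨯₃ b0) = ((a0 ⨯₃ b0) ⬝ᵥ v) ^ 2 := by
      conv_lhs => rw [hcr]
      rw [nsq_smul, hv, mul_one]
    rw [hdetL, div_pow, hfr.gram (hau _ hav) (hau _ hbv), cross_vecMul, hG,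
      adjugate_adjugate _ (by simp), hcr]
    simp only [Fintype.card_fin, smul_mulVec, mulVec_smul, nsq_smul,
      ← hc2, hMv, ← hD, hv, mul_one]
    rw [hc2]
    have hD0 : D ≠ 0 := E.det_ne
    field_simp
    norm_num
  have hne : LinearMap.det L ≠ 0 := by
    intro h0; rw [h0] at hdet2
    have : 0 < nsq (a0 ⨯₃ b0) / E.F ^ 2 := by positivity
    linarith
  have hsub : (fun x : V3 => (x ⬝ᵥ p, x ⬝ᵥ q)) '' K ⊆ L ⁻¹' S := by
    rintro _ ⟨x, hx, rfl⟩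
    set y := D⁻¹ • (G *ᵥ x) with hy
    have hyd : ∀ n0 : V3, n0 ⬝ᵥ y = (n0 ᵥ* G) ⬝ᵥ x / D := fun n0 => by
      rw [hy, dotProduct_smul, dotProduct_mulVec, smul_eq_mul]; ring
    have hin : InSlabs E y := fun i => by
      rw [hyd, abs_div, div_le_one (abs_pos.2 E.det_ne)]
      exact E.contact i x hx
    have e : ∀ c : V3, c ⬝ᵥ u = 0 → c ⬝ᵥ x = (c ⬝ᵥ p) * (x ⬝ᵥ p) + (c ⬝ᵥ q) * (x ⬝ᵥ q) := by
      intro c hc
      conv_lhs => rw [hfr.expand c]
      simp [add_dotProduct, smul_dotProduct, hc, dotProduct_comm p x, dotProduct_comm q x]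
    have h1 := hS y hin
    rw [hyd, hyd, e _ (hau _ hav), e _ (hau _ hbv)] at h1
    exact h1
  refine (measure_mono hsub).trans ?_
  rw [Measure.addHaar_preimage_linearMap _ hne]
  refine (mul_le_mul' le_rfl hvol).trans ?_
  rw [← ENNReal.ofReal_mul (abs_nonneg _)]
  refine ENNReal.ofReal_le_ofReal (le_of_eq ?_)
  have habs : |LinearMap.det L| = Real.sqrt (nsq (a0 ⨯₃ b0)) / E.F := by
    rw [← Real.sqrt_sq_eq_abs, hdet2, Real.sqrt_div' _ (sq_nonneg _), Real.sqrt_sq hF.le]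
  rw [abs_inv, habs]
  have := Real.sqrt_pos.2 hgram
  field_simp

end Vale.Agent.P243b
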