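import Mathlib
import Vale.Agent.P243.Defs
import Vale.Agent.P243b.Coplanar
import Vale.Agent.P243b.Archimedes
import Vale.Agent.P243b.SymGeom

/-!
The half-area bound for centrally symmetric bodies and arbitrary cylinder directions.
-/

open MeasureTheory Set Matrix Vale.Agent.P243

namespace Vale.Agent.P243b

lemma inner_ofLp (x y : Space) : inner ℝ x y = WithLp.ofLp x ⬝ᵥ WithLp.ofLp y := by
  rw [EuclideanSpace.inner_eq_star_dotProduct, star_trivial, dotProduct_comm]

/-- An orthonormal frame at a unit vector, with the coordinates of its plane. -/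
lemma exists_chart {u : Space} (hu : ‖u‖ = 1) : ∃ (p q : V3) (ψ : ℝ × ℝ → perp u),
    Frame (WithLp.ofLp u) p q ∧ MeasurePreserving ψ volume volume ∧ MeasurableEmbedding ψ ∧
    ∀ x : Space, (perp u).orthogonalProjectionOnto x
      = ψ (WithLp.ofLp x ⬝ᵥ p, WithLp.ofLp x ⬝ᵥ q) := by
  obtain ⟨v, hv, hvu, -⟩ := exists_unit_orth u u
  obtain ⟨n, hn, hnu, hnv⟩ := exists_unit_orth u v
  have huv : inner ℝ u v = (0:ℝ) := by rw [real_inner_comm]; exact hvu
  have hun : inner ℝ u n = (0:ℝ) := by rw [real_inner_comm]; exact hnu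
  have hvn : inner ℝ v n = (0:ℝ) := by rw [real_inner_comm]; exact hnv
  obtain ⟨ψ, hψ, hψe, hψp⟩ := plane_coords hu hv hn huv hun hvn
  refine ⟨WithLp.ofLp v, WithLp.ofLp n, ψ, ?_, hψ, hψe, fun x => ?_⟩
  · constructor
    · rw [← inner_ofLp, real_inner_self_eq_norm_sq, hu, one_pow]
    · rw [← inner_ofLp, real_inner_self_eq_norm_sq, hv, one_pow]
    · rw [← inner_ofLp, real_inner_self_eq_norm_sq, hn, one_pow]
    · rw [← inner_ofLp]; exact huv
    · rw [← inner_ofLp]; exact hun
    · rw [← inner_ofLp]; exact hvn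
  · rw [hψp, inner_ofLp, inner_ofLp, dotProduct_comm (WithLp.ofLp v), dotProduct_comm (WithLp.ofLp n)]

/-- The half-area bound, with the constant four pi over twenty-five. -/
theorem symmetric_half {ι : Type*} [Fintype ι] {K : Set Space} (hK : IsCompact K) (hKc : Convex ℝ K)
    (hKi : (interior K).Nonempty) (c : Space) (hsym : ∀ x ∈ K, (2:ℝ) • c - x ∈ K)
    (u : ι → Space) (hu : ∀ i, ‖u i‖ = 1) (B : ∀ i, Set (perp (u i)))
    (hBf : ∀ i, FinitePlaneArea (u i) (B i)) (hcov : K ⊆ ⋃ i, axisCylinder (u i) (B i)) :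
    ∃ v : Space, ‖v‖ = 1 ∧
      4 * Real.pi / 25 * projArea K v ≤ ∑ i, planeArea (u i) (B i) := by
  classical
  -- the centre is interior
  obtain ⟨x1, hx1⟩ := hKi
  have hc : c ∈ interior K := by
    have h2 : (2:ℝ) • c - x1 ∈ interior K := by
      obtain ⟨ε, hε, hb⟩ := Metric.mem_nhds_iff.1 (mem_interior_iff_mem_nhds.1 hx1)
      refine mem_interior_iff_mem_nhds.2 (Metric.mem_nhds_iff.2 ⟨ε, hε, fun y hy => ?_⟩)
      have hy2 : (2:ℝ) • c - y ∈ Metric.ball x1 ε := by
        rw [Metric.mem_ball, dist_eq_norm] at hy ⊢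
        rw [show (2:ℝ) • c - y - x1 = -(y - ((2:ℝ) • c - x1)) by abel, norm_neg]; exact hy
      simpa using hsym _ (hb hy2)
    have := hKc.interior hx1 h2 (by norm_num : (0:ℝ) ≤ 1/2) (by norm_num : (0:ℝ) ≤ 1/2) (by norm_num)
    convert this using 1
    module
  obtain ⟨ε, hε, hball⟩ := Metric.mem_nhds_iff.1 (mem_interior_iff_mem_nhds.1 hc)
  -- coordinates
  set K0 : Set V3 := (fun x : Space => WithLp.ofLp (x - c)) '' K with hK0
  have hK0c : IsCompact K0 := hK.image (by fun_prop)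
  have hK0v : Convex ℝ K0 := by
    have e : K0 = (WithLp.linearEquiv 2 ℝ V3).toLinearMap '' ((fun x => x + -c) '' K) := by
      rw [image_image, hK0]; simp [sub_eq_add_neg]
    rw [e]
    refine Convex.linear_image ?_ _
    exact hKc.affine_image ((AffineEquiv.constVAdd ℝ Space (-c)).toAffineMap) |> fun h => by
      simpa [add_comm] using h
  have hK0s : ∀ x ∈ K0, -x ∈ K0 := by
    rintro _ ⟨x, hx, rfl⟩
    refine ⟨_, hsym x hx, ?_⟩
    simp only [← WithLp.ofLp_neg]
    congr 1
    module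
  have hK0b : ∀ x : V3, nsq x ≤ (ε / 2) ^ 2 → x ∈ K0 := by
    intro x hx
    refine ⟨WithLp.toLp 2 x + c, hball ?_, by simp⟩
    have h : ‖WithLp.toLp 2 x‖ ^ 2 ≤ (ε / 2) ^ 2 := by
      rw [← real_inner_self_eq_norm_sq, inner_ofLp]; exact hx
    have := abs_le_of_sq_le_sq' h (by positivity)
    rw [Metric.mem_ball, dist_eq_norm, add_sub_cancel_right]
    linarith
  obtain ⟨E⟩ := exists_extremal hK0c hK0v hK0s (half_pos hε) hK0b
  -- the cylinders cover the ellipsoid
  choose p q ψ hfr hψ hψe hψp using fun i => exists_chart (hu i)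
  let t : ι → ℝ × ℝ := fun i => (WithLp.ofLp c ⬝ᵥ p i, WithLp.ofLp c ⬝ᵥ q i)
  let B' : ι → Set (ℝ × ℝ) := fun i => (fun z => z + t i) ⁻¹' (ψ i ⁻¹' toMeasurable volume (B i))
  have hB'm : ∀ i, MeasurableSet (B' i) := fun i =>
    ((measurableSet_toMeasurable _ _).preimage (hψ i).measurable).preimage (measurable_add_const _)
  have hB'v : ∀ i, volume (B' i) = (volume : Measure (perp (u i))) (B i) := fun i => by
    rw [measure_preimage_add_right, (hψ i).measure_preimage
      (measurableSet_toMeasurable _ _).nullMeasurableSet, measure_toMeasurable]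
  have hcyl := ellipsoid_cover E.F_pos E.det_ne E.least (fun i => WithLp.ofLp (u i)) p q hfr B' hB'm
    (fun i => by rw [hB'v]; exact hBf i) (fun y hy => by
      obtain ⟨x, hx, hxe⟩ := E.ball_sub y hy
      obtain ⟨i, hi⟩ := mem_iUnion.1 (hcov hx)
      refine ⟨i, ?_⟩
      have hi' : (perp (u i)).orthogonalProjectionOnto x ∈ B i := hi
      rw [hψp] at hi'
      show ψ i (_ + t i) ∈ toMeasurable volume (B i)
      refine subset_toMeasurable _ _ ?_
      convert hi' using 2
      simp [t, ← hxe, sub_dotProduct])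
  have hsum : ∀ i, volume.real (B' i) = planeArea (u i) (B i) := fun i => by
    simp only [planeArea, area, Measure.real, hB'v]
  simp only [hsum] at hcyl
  -- the small shadow
  obtain ⟨u0, hu0, hu0s⟩ := exists_small_shadow E
  have hv : ‖WithLp.toLp 2 u0‖ = 1 := by
    have h : ‖WithLp.toLp 2 u0‖ ^ 2 = 1 := by rw [← real_inner_self_eq_norm_sq, inner_ofLp]; exact hu0
    exact (pow_eq_one_iff_of_nonneg (norm_nonneg _) two_ne_zero).1 h
  refine ⟨WithLp.toLp 2 u0, hv, ?_⟩
  obtain ⟨p0, q0, χ, hfr0, hχ, hχe, hχp⟩ := exists_chart hv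
  set t0 : ℝ × ℝ := (WithLp.ofLp c ⬝ᵥ p0, WithLp.ofLp c ⬝ᵥ q0)
  set T := (fun x : V3 => (x ⬝ᵥ p0, x ⬝ᵥ q0)) '' K0 with hT
  have harea : projArea K (WithLp.toLp 2 u0) ≤ 25 / 4 * E.F := by
    refine ENNReal.toReal_le_of_le_ofReal (by have := E.F_pos; positivity) ?_
    refine le_trans (le_of_eq ?_) (hu0s p0 q0 hfr0)
    rw [← hT, ← hχ.measure_preimage_emb hχe, ← measure_preimage_add_right volume t0]
    congr 1
    ext z
    simp only [mem_preimage, mem_image, hT, hK0, exists_exists_and_eq_and]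
    constructor
    · rintro ⟨x, hx, he⟩
      rw [hχp] at he
      refine ⟨x, hx, ?_⟩
      have := hχe.injective he
      ext <;> simp [t0, Prod.ext_iff, sub_dotProduct] at this ⊢ <;> linarith [this.1, this.2]
    · rintro ⟨x, hx, rfl⟩
      refine ⟨x, hx, ?_⟩
      rw [hχp]
      congr 1
      simp [t0, sub_dotProduct]
  have h25 : 4 * Real.pi / 25 * projArea K (WithLp.toLp 2 u0)
      ≤ 4 * Real.pi / 25 * (25 / 4 * E.F) := mul_le_mul_of_nonneg_left harea (by positivity)
  linarith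

end Vale.Agent.P243b
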